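import Mathlib

/-!
Fourier analysis on the discrete cube `ι → Bool` with the uniform measure.
-/

set_option linter.unusedSectionVars false
set_option linter.unusedSimpArgs false

namespace Vale.Agent.Lib.P238

open Finset

variable {ι : Type*} [Fintype ι] [DecidableEq ι]

/-- The sign of a bit. -/
noncomputable def sg (b : Bool) : ℝ := if b then -1 else 1

@[simp] lemma sg_true : sg true = -1 := by simp [sg]
@[simp] lemma sg_false : sg false = 1 := by simp [sg]

lemma sg_mul_self (b : Bool) : sg b * sg b = 1 := by cases b <;> simp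

lemma sg_not (b : Bool) : sg (!b) = - sg b := by cases b <;> simp

/-- Walsh characters. -/
noncomputable def chi (S : Finset ι) (x : ι → Bool) : ℝ := ∏ i ∈ S, sg (x i)

/-- Uniform expectation on the cube. -/
noncomputable def ex (g : (ι → Bool) → ℝ) : ℝ := (∑ x, g x) / 2 ^ Fintype.card ι

/-- Fourier coefficients. -/
noncomputable def fh (f : (ι → Bool) → ℝ) (S : Finset ι) : ℝ := ex (fun x => f x * chi S x)

lemma two_pow_pos : (0 : ℝ) < 2 ^ Fintype.card ι := by positivity

lemma ex_add (g h : (ι → Bool) → ℝ) : ex (fun x => g x + h x) = ex g + ex h := by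
  simp [ex, Finset.sum_add_distrib, add_div]

lemma ex_sub (g h : (ι → Bool) → ℝ) : ex (fun x => g x - h x) = ex g - ex h := by
  simp [ex, Finset.sum_sub_distrib, sub_div]

lemma ex_mul_left (c : ℝ) (g : (ι → Bool) → ℝ) : ex (fun x => c * g x) = c * ex g := by
  simp [ex, ← Finset.mul_sum, mul_div_assoc]

lemma ex_mul_right (c : ℝ) (g : (ι → Bool) → ℝ) : ex (fun x => g x * c) = ex g * c := by
  simp [ex, ← Finset.sum_mul, div_mul_eq_mul_div]

lemma ex_sum {κ : Type*} (s : Finset κ) (g : κ → (ι → Bool) → ℝ) :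
    ex (fun x => ∑ k ∈ s, g k x) = ∑ k ∈ s, ex (g k) := by
  simp only [ex]
  rw [Finset.sum_comm, Finset.sum_div]

lemma ex_mono {g h : (ι → Bool) → ℝ} (H : ∀ x, g x ≤ h x) : ex g ≤ ex h := by
  unfold ex
  apply div_le_div_of_nonneg_right _ (two_pow_pos (ι := ι)).le
  exact Finset.sum_le_sum fun x _ => H x

lemma ex_nonneg {g : (ι → Bool) → ℝ} (H : ∀ x, 0 ≤ g x) : 0 ≤ ex g := by
  unfold ex
  exact div_nonneg (Finset.sum_nonneg fun x _ => H x) (two_pow_pos (ι := ι)).le

lemma ex_const (c : ℝ) : ex (fun _ : ι → Bool => c) = c := by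
  unfold ex
  simp only [Finset.sum_const, Finset.card_univ, Fintype.card_fun, Fintype.card_bool, nsmul_eq_mul]
  have h : (2 : ℝ) ^ Fintype.card ι ≠ 0 := (two_pow_pos (ι := ι)).ne'
  push_cast
  field_simp

lemma ex_congr {g h : (ι → Bool) → ℝ} (H : ∀ x, g x = h x) : ex g = ex h := by
  have : g = h := funext H
  rw [this]

lemma ex_equiv (e : (ι → Bool) ≃ (ι → Bool)) (g : (ι → Bool) → ℝ) :
    ex (fun x => g (e x)) = ex g := by
  unfold ex
  rw [Equiv.sum_comp e g]

/-- Completeness of the characters. -/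
lemma sum_chi_chi (x y : ι → Bool) :
    ∑ S : Finset ι, chi S x * chi S y = if x = y then 2 ^ Fintype.card ι else 0 := by
  have h1 : ∑ S : Finset ι, chi S x * chi S y = ∏ i : ι, (1 + sg (x i) * sg (y i)) := by
    rw [Finset.prod_one_add, Finset.powerset_univ]
    refine Finset.sum_congr rfl fun S _ => ?_
    simp [chi, Finset.prod_mul_distrib]
  rw [h1]
  split_ifs with h
  · subst h
    simp [sg_mul_self]
    norm_num
  · obtain ⟨i, hi⟩ : ∃ i, x i ≠ y i := by
      by_contra hc
      push Not at hc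
      exact h (funext hc)
    apply Finset.prod_eq_zero (Finset.mem_univ i)
    cases hx : x i <;> cases hy : y i <;> simp_all

/-- Fourier inversion. -/
lemma fourier_inv (f : (ι → Bool) → ℝ) (x : ι → Bool) :
    ∑ S : Finset ι, fh f S * chi S x = f x := by
  have h : ∑ S : Finset ι, fh f S * chi S x
      = (∑ y, f y * ∑ S : Finset ι, chi S y * chi S x) / 2 ^ Fintype.card ι := by
    simp only [fh, ex, Finset.sum_div, Finset.sum_mul, Finset.mul_sum]
    rw [Finset.sum_comm]
    refine Finset.sum_congr rfl fun y _ => ?_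
    refine Finset.sum_congr rfl fun S _ => ?_
    ring
  rw [h]
  simp only [sum_chi_chi, mul_ite, mul_zero]
  rw [Finset.sum_ite_eq' Finset.univ x (fun y => f y * 2 ^ Fintype.card ι)]
  simp only [Finset.mem_univ, if_true]
  have h2 : (2 : ℝ) ^ Fintype.card ι ≠ 0 := (two_pow_pos (ι := ι)).ne'
  field_simp

/-- Parseval. -/
lemma parseval (f g : (ι → Bool) → ℝ) :
    ex (fun x => f x * g x) = ∑ S : Finset ι, fh f S * fh g S := by
  have h : ∀ x, f x * g x = ∑ S : Finset ι, fh f S * (g x * chi S x) := by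
    intro x
    conv_lhs => rw [← fourier_inv f x]
    rw [Finset.sum_mul]
    refine Finset.sum_congr rfl fun S _ => ?_
    ring
  rw [ex_congr h, ex_sum]
  refine Finset.sum_congr rfl fun S _ => ?_
  rw [ex_mul_left]
  rfl

lemma fh_add (f g : (ι → Bool) → ℝ) (S : Finset ι) :
    fh (fun x => f x + g x) S = fh f S + fh g S := by
  unfold fh
  rw [← ex_add]
  exact ex_congr fun x => by ring

lemma fh_sub (f g : (ι → Bool) → ℝ) (S : Finset ι) :
    fh (fun x => f x - g x) S = fh f S - fh g S := by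
  unfold fh
  rw [← ex_sub]
  exact ex_congr fun x => by ring

lemma fh_smul (c : ℝ) (f : (ι → Bool) → ℝ) (S : Finset ι) :
    fh (fun x => c * f x) S = c * fh f S := by
  unfold fh
  rw [← ex_mul_left]
  exact ex_congr fun x => by ring

lemma sum_sq_eq (f : (ι → Bool) → ℝ) : ex (fun x => f x ^ 2) = ∑ S : Finset ι, fh f S ^ 2 := by
  have := parseval f f
  simp only [← pow_two] at this
  exact this

/-- The action of a permutation of coordinates on the cube. -/
def actEquiv (π : Equiv.Perm ι) : (ι → Bool) ≃ (ι → Bool) where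
  toFun x := x ∘ π
  invFun x := x ∘ π.symm
  left_inv x := by funext i; simp
  right_inv x := by funext i; simp

lemma ex_act (π : Equiv.Perm ι) (g : (ι → Bool) → ℝ) : ex (fun x => g (x ∘ π)) = ex g :=
  ex_equiv (actEquiv π) g

lemma chi_act (S : Finset ι) (π : Equiv.Perm ι) (x : ι → Bool) :
    chi S (x ∘ π) = chi (S.map π.toEmbedding) x := by
  simp [chi, Finset.prod_map]

lemma fh_act (f : (ι → Bool) → ℝ) (π : Equiv.Perm ι) (S : Finset ι) :
    fh (fun x => f (x ∘ π)) S = fh f (S.map π.symm.toEmbedding) := by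
  unfold fh
  rw [← ex_act π (fun x => f x * chi (S.map π.symm.toEmbedding) x)]
  refine ex_congr fun x => ?_
  congr 1
  rw [chi_act]
  have : (S.map π.symm.toEmbedding).map π.toEmbedding = S := by
    ext a
    simp
  rw [this]

/-- The squared difference between `f` and `f` composed with a permutation. -/
noncomputable def sens (f : (ι → Bool) → ℝ) (π : Equiv.Perm ι) : ℝ :=
  ex (fun x => (f x - f (x ∘ π)) ^ 2)

lemma sens_eq (f : (ι → Bool) → ℝ) (π : Equiv.Perm ι) :
    sens f π = ∑ S : Finset ι, (fh f S - fh f (S.map π.symm.toEmbedding)) ^ 2 := by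
  unfold sens
  rw [sum_sq_eq]
  refine Finset.sum_congr rfl fun S _ => ?_
  rw [fh_sub, fh_act]

lemma sens_nonneg (f : (ι → Bool) → ℝ) (π : Equiv.Perm ι) : 0 ≤ sens f π :=
  ex_nonneg fun _ => sq_nonneg _

lemma sens_symm (f : (ι → Bool) → ℝ) (π : Equiv.Perm ι) : sens f π.symm = sens f π := by
  unfold sens
  rw [← ex_act π (fun x => (f x - f (x ∘ π.symm)) ^ 2)]
  refine ex_congr fun x => ?_
  have : x ∘ π ∘ π.symm = x := by
    funext i
    simp
  have h2 : (x ∘ π) ∘ π.symm = x := by
    funext i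
    simp
  rw [h2]
  ring

/-- A function with values in `{1, -1}`. -/
def IsSign (f : (ι → Bool) → ℝ) : Prop := ∀ x, f x = 1 ∨ f x = -1

lemma IsSign.sq {f : (ι → Bool) → ℝ} (hf : IsSign f) (x : ι → Bool) : f x ^ 2 = 1 := by
  rcases hf x with h | h <;> rw [h] <;> norm_num

lemma sq_tri {a b c : ℝ} (ha : a = 1 ∨ a = -1) (hb : b = 1 ∨ b = -1) (hc : c = 1 ∨ c = -1) :
    (a - c) ^ 2 ≤ (a - b) ^ 2 + (b - c) ^ 2 := by
  rcases ha with rfl | rfl <;> rcases hb with rfl | rfl <;> rcases hc with rfl | rfl <;> norm_num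

/-- Subadditivity of `sens` for sign functions. -/
lemma sens_mul_le {f : (ι → Bool) → ℝ} (hf : IsSign f) (π σ : Equiv.Perm ι) :
    sens f (π * σ) ≤ sens f π + sens f σ := by
  unfold sens
  rw [← ex_act π (fun x => (f x - f (x ∘ σ)) ^ 2), ← ex_add]
  refine ex_mono fun x => ?_
  have : x ∘ (π * σ) = (x ∘ π) ∘ σ := by
    funext i
    simp
  rw [this]
  exact sq_tri (hf _) (hf _) (hf _)

/-- Flip one coordinate. -/
def flp (c : ι) (x : ι → Bool) : ι → Bool := Function.update x c (!x c)

lemma flp_flp (c : ι) (x : ι → Bool) : flp c (flp c x) = x := by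
  funext i
  by_cases h : i = c
  · subst h
    simp [flp]
  · simp [flp, Function.update_of_ne h]

/-- The flip as an equivalence. -/
def flpEquiv (c : ι) : (ι → Bool) ≃ (ι → Bool) where
  toFun := flp c
  invFun := flp c
  left_inv := flp_flp c
  right_inv := flp_flp c

lemma ex_flp (c : ι) (g : (ι → Bool) → ℝ) : ex (fun x => g (flp c x)) = ex g :=
  ex_equiv (flpEquiv c) g

lemma chi_flp (S : Finset ι) (c : ι) (x : ι → Bool) :
    chi S (flp c x) = (if c ∈ S then -1 else 1) * chi S x := by
  unfold chi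
  by_cases h : c ∈ S
  · rw [if_pos h, ← Finset.mul_prod_erase S _ h, ← Finset.mul_prod_erase S (fun i => sg (x i)) h]
    have : ∏ i ∈ S.erase c, sg (flp c x i) = ∏ i ∈ S.erase c, sg (x i) := by
      refine Finset.prod_congr rfl fun i hi => ?_
      have : i ≠ c := Finset.ne_of_mem_erase hi
      simp [flp, Function.update_of_ne this]
    rw [this]
    simp [flp, sg_not]
  · rw [if_neg h, one_mul]
    refine Finset.prod_congr rfl fun i hi => ?_
    have : i ≠ c := fun e => h (e ▸ hi)
    simp [flp, Function.update_of_ne this]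

lemma fh_flp (f : (ι → Bool) → ℝ) (c : ι) (S : Finset ι) :
    fh (fun x => f (flp c x)) S = (if c ∈ S then -1 else 1) * fh f S := by
  unfold fh
  rw [← ex_flp c (fun x => f x * chi S x), ← ex_mul_left]
  refine ex_congr fun x => ?_
  rw [chi_flp]
  split_ifs <;> ring

/-- The squared difference under a flip. -/
noncomputable def sflip (f : (ι → Bool) → ℝ) (c : ι) : ℝ :=
  ex (fun x => (f x - f (flp c x)) ^ 2)

lemma sflip_eq (f : (ι → Bool) → ℝ) (c : ι) :
    sflip f c = 4 * ∑ S : Finset ι, if c ∈ S then fh f S ^ 2 else 0 := by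
  unfold sflip
  rw [sum_sq_eq, Finset.mul_sum]
  refine Finset.sum_congr rfl fun S _ => ?_
  rw [fh_sub, fh_flp]
  split_ifs <;> ring

lemma sflip_nonneg (f : (ι → Bool) → ℝ) (c : ι) : 0 ≤ sflip f c :=
  ex_nonneg fun _ => sq_nonneg _

lemma sum_fh_sq_of_sign {f : (ι → Bool) → ℝ} (hf : IsSign f) : ∑ S : Finset ι, fh f S ^ 2 = 1 := by
  rw [← sum_sq_eq, ex_congr hf.sq, ex_const]

/-- Expectation of a character. -/
lemma ex_chi (S : Finset ι) : ex (chi S) = if S = ∅ then 1 else 0 := by
  split_ifs with h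
  · subst h
    have : (chi (∅ : Finset ι)) = fun _ => (1 : ℝ) := by
      funext x
      simp [chi]
    rw [this, ex_const]
  · obtain ⟨c, hc⟩ := Finset.nonempty_iff_ne_empty.mpr h
    have h1 := ex_flp c (chi S)
    have h2 : ex (fun x => chi S (flp c x)) = - ex (chi S) := by
      rw [← neg_one_mul, ← ex_mul_left]
      refine ex_congr fun x => ?_
      rw [chi_flp, if_pos hc]
    rw [h2] at h1
    linarith

lemma chi_mul_self (S : Finset ι) (x : ι → Bool) : chi S x * chi S x = 1 := by
  unfold chi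
  rw [← Finset.prod_mul_distrib]
  exact Finset.prod_eq_one fun i _ => sg_mul_self _

lemma chi_mul (S T : Finset ι) (x : ι → Bool) : chi S x * chi T x = chi (symmDiff S T) x := by
  have h : ∀ (S T : Finset ι), Disjoint S T → chi (S ∪ T) x = chi S x * chi T x := by
    intro S T hd
    unfold chi
    rw [Finset.prod_union hd]
  have hS : S = (S \ T) ∪ (S ∩ T) := by
    ext a; simp; tauto
  have hT : T = (T \ S) ∪ (S ∩ T) := by
    ext a; simp; tauto
  have hd1 : Disjoint (S \ T) (S ∩ T) := by
    rw [Finset.disjoint_left]; intro a; simp; tauto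
  have hd2 : Disjoint (T \ S) (S ∩ T) := by
    rw [Finset.disjoint_left]; intro a; simp; tauto
  have hd3 : Disjoint (S \ T) (T \ S) := by
    rw [Finset.disjoint_left]; intro a; simp; tauto
  have hsd : symmDiff S T = (S \ T) ∪ (T \ S) := by
    ext a; simp [Finset.mem_symmDiff]
  have e1 : chi S x = chi (S \ T) x * chi (S ∩ T) x := by
    conv_lhs => rw [hS]
    exact h _ _ hd1
  have e2 : chi T x = chi (T \ S) x * chi (S ∩ T) x := by
    conv_lhs => rw [hT]
    exact h _ _ hd2
  rw [hsd, h _ _ hd3, e1, e2]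
  have := chi_mul_self (S ∩ T) x
  calc _ = chi (S \ T) x * chi (T \ S) x * (chi (S ∩ T) x * chi (S ∩ T) x) := by ring
    _ = _ := by rw [this, mul_one]

lemma symmDiff_eq_empty_iff' (S T : Finset ι) : symmDiff S T = ∅ ↔ S = T := by
  constructor
  · intro h
    exact symmDiff_eq_bot.mp h
  · rintro rfl
    simp

/-- Fourier coefficients of a character. -/
lemma fh_chi (S T : Finset ι) : fh (chi S) T = if S = T then 1 else 0 := by
  unfold fh
  rw [ex_congr (chi_mul S T), ex_chi]
  simp [symmDiff_eq_empty_iff']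

/-- Fourier coefficients of a polynomial. -/
lemma fh_poly (a : Finset ι → ℝ) (T : Finset ι) :
    fh (fun x => ∑ S : Finset ι, a S * chi S x) T = a T := by
  unfold fh
  have : ∀ x, (∑ S : Finset ι, a S * chi S x) * chi T x
      = ∑ S : Finset ι, a S * (chi S x * chi T x) := by
    intro x
    rw [Finset.sum_mul]
    refine Finset.sum_congr rfl fun S _ => ?_
    ring
  rw [ex_congr this, ex_sum]
  simp only [ex_mul_left]
  have h2 : ∀ S, ex (fun x => chi S x * chi T x) = if S = T then 1 else 0 := fun S => fh_chi S T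
  simp only [h2, mul_ite, mul_one, mul_zero]
  rw [Finset.sum_ite_eq' Finset.univ T]
  simp

end Vale.Agent.Lib.P238
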