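import Vale.Agent.Lib.P238.Edit
import Vale.Agent.Lib.P238.Cube

/-!
Counting binary words close to a given word in edit distance.
-/

set_option linter.unusedSectionVars false
set_option linter.unusedSimpArgs false
set_option linter.unusedVariables false

namespace Vale.Agent.Lib.P238

open Finset

/-- The number of binary words of length `ℓ` within distance `e` of `w`. -/
noncomputable def ballC (ℓ : ℕ) (w : List Bool) (e : ℕ) : ℕ :=
  (Finset.univ.filter (fun l : Fin ℓ → Bool => ed (List.ofFn l) w ≤ e)).card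

lemma card_head {ℓ : ℕ} (b : Bool) (w : List Bool) (e : ℕ) :
    (Finset.univ.filter (fun l : Fin (ℓ + 1) → Bool =>
        l 0 = b ∧ ed (List.ofFn (fun i : Fin ℓ => l i.succ)) w ≤ e)).card ≤ ballC ℓ w e := by
  unfold ballC
  apply Finset.card_le_card_of_injOn (fun l : Fin (ℓ + 1) → Bool => fun i : Fin ℓ => l i.succ)
  · intro l hl
    simp only [Finset.coe_filter, Finset.mem_univ, true_and, Set.mem_ofPred_eq] at hl ⊢
    exact hl.2
  · intro l hl l' hl' e'
    simp only [Finset.coe_filter, Finset.mem_univ, true_and, Set.mem_ofPred_eq] at hl hl'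
    funext i
    refine Fin.cases ?_ (fun j => ?_) i
    · rw [hl.1, hl'.1]
    · exact congrFun e' j

lemma ballC_step (ℓ : ℕ) (b : Bool) (w : List Bool) (e : ℕ) :
    ballC (ℓ + 1) (b :: w) (e + 1) ≤ 2 * ballC ℓ (b :: w) e + ballC (ℓ + 1) w e
      + ballC ℓ w (e + 1) + ballC ℓ w e := by
  set A₁ := Finset.univ.filter (fun l : Fin (ℓ + 1) → Bool =>
        l 0 = true ∧ ed (List.ofFn (fun i : Fin ℓ => l i.succ)) (b :: w) ≤ e) with hA₁
  set A₂ := Finset.univ.filter (fun l : Fin (ℓ + 1) → Bool =>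
        l 0 = false ∧ ed (List.ofFn (fun i : Fin ℓ => l i.succ)) (b :: w) ≤ e) with hA₂
  set A₃ := Finset.univ.filter (fun l : Fin (ℓ + 1) → Bool => ed (List.ofFn l) w ≤ e) with hA₃
  set A₄ := Finset.univ.filter (fun l : Fin (ℓ + 1) → Bool =>
        l 0 = b ∧ ed (List.ofFn (fun i : Fin ℓ => l i.succ)) w ≤ e + 1) with hA₄
  set A₅ := Finset.univ.filter (fun l : Fin (ℓ + 1) → Bool =>
        l 0 = !b ∧ ed (List.ofFn (fun i : Fin ℓ => l i.succ)) w ≤ e) with hA₅
  have hsub : Finset.univ.filter (fun l : Fin (ℓ + 1) → Bool => ed (List.ofFn l) (b :: w) ≤ e + 1)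
      ⊆ A₁ ∪ A₂ ∪ A₃ ∪ A₄ ∪ A₅ := by
    intro l hl
    simp only [Finset.mem_filter, Finset.mem_univ, true_and] at hl
    rw [List.ofFn_succ, ed_cons_cons] at hl
    simp only [hA₁, hA₂, hA₃, hA₄, hA₅, Finset.mem_union, Finset.mem_filter, Finset.mem_univ,
      true_and]
    rw [List.ofFn_succ]
    have hb : l 0 = true ∨ l 0 = false := by cases l 0 <;> simp
    by_cases h1 : ed (List.ofFn fun i : Fin ℓ => l i.succ) (b :: w) ≤ e
    · rcases hb with hb | hb
      · exact Or.inl (Or.inl (Or.inl (Or.inl ⟨hb, h1⟩)))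
      · exact Or.inl (Or.inl (Or.inl (Or.inr ⟨hb, h1⟩)))
    by_cases h2 : ed (l 0 :: List.ofFn fun i : Fin ℓ => l i.succ) w ≤ e
    · exact Or.inl (Or.inl (Or.inr h2))
    by_cases h3 : l 0 = b
    · simp only [h3, if_true] at hl ⊢
      have : ed (List.ofFn fun i : Fin ℓ => l i.succ) w ≤ e + 1 := by
        rw [h3] at h2
        omega
      exact Or.inl (Or.inr ⟨trivial, this⟩)
    · simp only [h3, if_false] at hl
      have h4 : l 0 = !b := by
        cases hl0 : l 0 <;> cases b <;> simp_all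
      have : ed (List.ofFn fun i : Fin ℓ => l i.succ) w ≤ e := by omega
      exact Or.inr ⟨h4, this⟩
  have h1 := Finset.card_le_card hsub
  have h2 := Finset.card_union_le (A₁ ∪ A₂ ∪ A₃ ∪ A₄) A₅
  have h3 := Finset.card_union_le (A₁ ∪ A₂ ∪ A₃) A₄
  have h4 := Finset.card_union_le (A₁ ∪ A₂) A₃
  have h5 := Finset.card_union_le A₁ A₂
  have c1 : A₁.card ≤ ballC ℓ (b :: w) e := card_head _ _ _
  have c2 : A₂.card ≤ ballC ℓ (b :: w) e := card_head _ _ _
  have c3 : A₃.card = ballC (ℓ + 1) w e := rfl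
  have c4 : A₄.card ≤ ballC ℓ w (e + 1) := card_head _ _ _
  have c5 : A₅.card ≤ ballC ℓ w e := card_head _ _ _
  unfold ballC at *
  omega

lemma ballC_nil_right (ℓ e : ℕ) : (ballC ℓ [] e : ℝ) ≤ 10 ^ e := by
  unfold ballC
  by_cases h : ℓ ≤ e
  · have h1 : (Finset.univ.filter (fun l : Fin ℓ → Bool => ed (List.ofFn l) [] ≤ e)).card
        ≤ 2 ^ ℓ := by
      refine (Finset.card_filter_le _ _).trans ?_
      simp
    have h2 : (2 : ℝ) ^ ℓ ≤ 10 ^ e :=
      (pow_le_pow_left₀ (by norm_num) (by norm_num : (2 : ℝ) ≤ 10) ℓ).trans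
        (pow_le_pow_right₀ (by norm_num) h)
    have h3 : (((Finset.univ.filter (fun l : Fin ℓ → Bool => ed (List.ofFn l) [] ≤ e)).card : ℕ) : ℝ)
        ≤ 2 ^ ℓ := by exact_mod_cast h1
    linarith
  · have h1 : Finset.univ.filter (fun l : Fin ℓ → Bool => ed (List.ofFn l) [] ≤ e) = ∅ := by
      apply Finset.filter_eq_empty_iff.mpr
      intro l _
      rw [ed_nil_right, List.length_ofFn]
      exact h
    rw [h1]
    simp only [Finset.card_empty, Nat.cast_zero]
    positivity

lemma ballC_zero (ℓ : ℕ) (w : List Bool) : ballC ℓ w 0 ≤ 1 := by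
  unfold ballC
  apply Finset.card_le_one.mpr
  intro l hl l' hl'
  simp only [Finset.mem_filter, Finset.mem_univ, true_and, nonpos_iff_eq_zero] at hl hl'
  have h1 := ed_eq_zero hl
  have h2 := ed_eq_zero hl'
  exact List.ofFn_injective (h1.trans h2.symm)

lemma ballC_left_zero (w : List Bool) (e : ℕ) : ballC 0 w e ≤ 1 := by
  unfold ballC
  refine (Finset.card_filter_le _ _).trans ?_
  simp

/-- The ball bound. -/
theorem ballC_le (ℓ : ℕ) (w : List Bool) (e : ℕ) :
    (ballC ℓ w e : ℝ) ≤ (3 / 2) ^ w.length * 10 ^ e := by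
  induction h : ℓ + w.length + e using Nat.strong_induction_on generalizing ℓ w e with
  | _ n ih =>
    have hpos : (1 : ℝ) ≤ (3 / 2) ^ w.length * 10 ^ e := by
      have h1 : (1 : ℝ) ≤ (3 / 2) ^ w.length := one_le_pow₀ (by norm_num)
      have h2 : (1 : ℝ) ≤ 10 ^ e := one_le_pow₀ (by norm_num)
      nlinarith
    cases w with
    | nil =>
      simpa using ballC_nil_right ℓ e
    | cons b w =>
      cases e with
      | zero =>
        have : (ballC ℓ (b :: w) 0 : ℝ) ≤ 1 := by exact_mod_cast ballC_zero ℓ _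
        linarith
      | succ e =>
        cases ℓ with
        | zero =>
          have : (ballC 0 (b :: w) (e + 1) : ℝ) ≤ 1 := by exact_mod_cast ballC_left_zero _ _
          linarith
        | succ ℓ =>
          have h0 := ballC_step ℓ b w e
          have h1 := ih _ (by simp at h ⊢; omega) ℓ (b :: w) e rfl
          have h2 := ih _ (by simp at h ⊢; omega) (ℓ + 1) w e rfl
          have h3 := ih _ (by simp at h ⊢; omega) ℓ w (e + 1) rfl
          have h4 := ih _ (by simp at h ⊢; omega) ℓ w e rfl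
          have h5 : (ballC (ℓ + 1) (b :: w) (e + 1) : ℝ) ≤ 2 * ballC ℓ (b :: w) e
              + ballC (ℓ + 1) w e + ballC ℓ w (e + 1) + ballC ℓ w e := by exact_mod_cast h0
          simp only [List.length_cons] at h1 ⊢
          have hp : (0 : ℝ) ≤ (3 / 2) ^ w.length * 10 ^ e := by positivity
          calc (ballC (ℓ + 1) (b :: w) (e + 1) : ℝ)
              ≤ 2 * ((3 / 2) ^ (w.length + 1) * 10 ^ e) + (3 / 2) ^ w.length * 10 ^ e
                + (3 / 2) ^ w.length * 10 ^ (e + 1) + (3 / 2) ^ w.length * 10 ^ e := by linarith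
            _ = (3 / 2) ^ (w.length + 1) * 10 ^ (e + 1) := by ring

end Vale.Agent.Lib.P238
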