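import Vale.Agent.Lib.P238.Rot

/-!
The bookkeeping of block swaps inside a parent block, on the Fourier side.
-/

set_option linter.unusedSectionVars false
set_option linter.unusedSimpArgs false
set_option linter.unusedVariables false

namespace Vale.Agent.Lib.P238

open Finset
open scoped Classical

variable {M : ℕ}

/-- Swap of the two halves of the node number `w` at scale `L`. -/
noncomputable def nodeT (M L w : ℕ) : Equiv.Perm (Fin M) := rot M (w * (2 * L)) (2 * L) L

/-- Rotation of the parent block number `p` by `k`. -/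
noncomputable def parU (M L R' p k : ℕ) : Equiv.Perm (Fin M) :=
  rot M (p * (2 * L * R')) (2 * L * R') k

/-- The scale `L` half blocks of the parent block `p` hit by `S`. -/
noncomputable def hits (L R' : ℕ) (S : Finset (Fin M)) (p : ℕ) : Finset ℕ :=
  (S.filter (fun a => a.val / (2 * L * R') = p)).image (fun a => a.val / L)

lemma div2L (a L : ℕ) : a / (2 * L) = a / L / 2 := by
  rw [Nat.div_div_eq_div_mul, mul_comm]

lemma div2LR (a L R' : ℕ) : a / (2 * L * R') = a / (2 * L) / R' := by
  rw [Nat.div_div_eq_div_mul]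

lemma mem_of_div {a d q : ℕ} (hd : 0 < d) (h : a / d = q) : q * d ≤ a ∧ a < q * d + d := by
  have := (Nat.div_eq_iff hd).mp h
  omega

lemma div_of_mem {a d q : ℕ} (hd : 0 < d) (h1 : q * d ≤ a) (h2 : a < q * d + d) : a / d = q := by
  apply (Nat.div_eq_iff hd).mpr
  omega

section node

variable {L w : ℕ}

lemma nodeT_of_ne (hL : 0 < L) (h : w * (2 * L) + 2 * L ≤ M) {a : Fin M}
    (ha : a.val / (2 * L) ≠ w) : nodeT M L w a = a := by
  apply Fin.ext
  unfold nodeT
  rw [rot_apply_val h]
  apply rn_of_not_mem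
  rintro ⟨h1, h2⟩
  exact ha (div_of_mem (by omega) h1 h2)

lemma nodeT_low (hL : 0 < L) (h : w * (2 * L) + 2 * L ≤ M) {a : Fin M}
    (ha : a.val / L = 2 * w) : (nodeT M L w a).val = a.val + L := by
  unfold nodeT
  rw [rot_apply_val h]
  have := mem_of_div hL ha
  have e : 2 * w * L = w * (2 * L) := by ring
  rw [e] at this
  apply rn_up this.1
  omega

lemma nodeT_high (hL : 0 < L) (h : w * (2 * L) + 2 * L ≤ M) {a : Fin M}
    (ha : a.val / L = 2 * w + 1) : (nodeT M L w a).val = a.val - L := by
  unfold nodeT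
  rw [rot_apply_val h]
  have := mem_of_div hL ha
  have e : (2 * w + 1) * L = w * (2 * L) + L := by ring
  rw [e] at this
  apply rn_half_high this.1
  omega

lemma node_cases (hL : 0 < L) {a : Fin M} (ha : a.val / (2 * L) = w) :
    a.val / L = 2 * w ∨ a.val / L = 2 * w + 1 := by
  rw [div2L] at ha
  omega

/-- The permutation of half block numbers induced by the swap. -/
def swapB (w b : ℕ) : ℕ := if b = 2 * w then 2 * w + 1 else if b = 2 * w + 1 then 2 * w else b

lemma swapB_inj (w : ℕ) {b b' : ℕ} (h : swapB w b = swapB w b') : b = b' := by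
  unfold swapB at h
  split_ifs at h <;> omega

lemma nodeT_bk (hL : 0 < L) (h : w * (2 * L) + 2 * L ≤ M) (a : Fin M) :
    (nodeT M L w a).val / L = swapB w (a.val / L) := by
  unfold swapB
  split_ifs with h1 h2
  · rw [nodeT_low hL h h1, Nat.add_div_right _ hL, h1]
  · rw [nodeT_high hL h h2]
    have h3 := mem_of_div hL h2
    apply div_of_mem hL
    · have e : (2 * w + 1) * L = 2 * w * L + L := by ring
      omega
    · have e : (2 * w + 1) * L = 2 * w * L + L := by ring
      omega
  · rw [nodeT_of_ne hL h]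
    intro h3
    rcases node_cases hL h3 with h4 | h4
    · exact h1 h4
    · exact h2 h4

lemma nodeT_nd (hL : 0 < L) (h : w * (2 * L) + 2 * L ≤ M) (a : Fin M) :
    (nodeT M L w a).val / (2 * L) = a.val / (2 * L) := by
  rw [div2L, div2L, nodeT_bk hL h]
  unfold swapB
  split_ifs <;> omega

lemma nodeT_symm (h : w * (2 * L) + 2 * L ≤ M) : (nodeT M L w).symm = nodeT M L w :=
  rot_half_symm h

lemma nodeT_invol (h : w * (2 * L) + 2 * L ≤ M) (a : Fin M) : nodeT M L w (nodeT M L w a) = a := by
  have := nodeT_symm h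
  conv_lhs => arg 1; rw [← this]
  simp

end node

lemma map_congr_perm {S : Finset (Fin M)} {π σ : Equiv.Perm (Fin M)} (h : ∀ a ∈ S, π a = σ a) :
    S.map π.toEmbedding = S.map σ.toEmbedding := by
  ext b
  simp only [Finset.mem_map, Equiv.coe_toEmbedding]
  constructor
  · rintro ⟨a, ha, rfl⟩
    exact ⟨a, ha, (h a ha).symm⟩
  · rintro ⟨a, ha, rfl⟩
    exact ⟨a, ha, h a ha⟩

lemma map_self_of_fix {S : Finset (Fin M)} {π : Equiv.Perm (Fin M)} (h : ∀ a ∈ S, π a = a) :
    S.map π.toEmbedding = S := by
  ext b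
  simp only [Finset.mem_map, Equiv.coe_toEmbedding]
  constructor
  · rintro ⟨a, ha, rfl⟩
    rw [h a ha]
    exact ha
  · intro hb
    exact ⟨b, hb, h b hb⟩

/-- `S` meets the node `w`. -/
def hitN (L : ℕ) (S : Finset (Fin M)) (w : ℕ) : Prop := ∃ a ∈ S, a.val / (2 * L) = w

/-- `S` meets two different half blocks of the parent block `p`. -/
def bigP (L R' : ℕ) (S : Finset (Fin M)) (p : ℕ) : Prop :=
  ∃ a ∈ S, ∃ a' ∈ S, a.val / (2 * L * R') = p ∧ a'.val / (2 * L * R') = p ∧ a.val / L ≠ a'.val / L

lemma node_parent {L R' p v : ℕ} (hR : 0 < R') (hv : v < R') {a : Fin M}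
    (ha : a.val / (2 * L) = p * R' + v) : a.val / (2 * L * R') = p := by
  rw [div2LR, ha]
  apply div_of_mem hR
  · omega
  · omega

section closure

variable {L R' p w : ℕ}

lemma hitN_map (hL : 0 < L) (h : w * (2 * L) + 2 * L ≤ M) {S : Finset (Fin M)} (hS : hitN L S w) :
    hitN L (S.map (nodeT M L w).toEmbedding) w := by
  obtain ⟨a, ha, e⟩ := hS
  refine ⟨nodeT M L w a, ?_, ?_⟩
  · exact Finset.mem_map_of_mem _ ha
  · rw [nodeT_nd hL h, e]

lemma bigP_map (hL : 0 < L) (h : w * (2 * L) + 2 * L ≤ M) {S : Finset (Fin M)} (hS : bigP L R' S p) :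
    bigP L R' (S.map (nodeT M L w).toEmbedding) p := by
  obtain ⟨a, ha, a', ha', e, e', hne⟩ := hS
  refine ⟨nodeT M L w a, Finset.mem_map_of_mem _ ha, nodeT M L w a', Finset.mem_map_of_mem _ ha', ?_, ?_, ?_⟩
  · rw [div2LR, nodeT_nd hL h, ← div2LR, e]
  · rw [div2LR, nodeT_nd hL h, ← div2LR, e']
  · rw [nodeT_bk hL h, nodeT_bk hL h]
    intro h2
    exact hne (swapB_inj w h2)

lemma map_map_node (h : w * (2 * L) + 2 * L ≤ M) (S : Finset (Fin M)) :
    (S.map (nodeT M L w).toEmbedding).map (nodeT M L w).toEmbedding = S := by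
  ext b
  simp only [Finset.mem_map, Equiv.coe_toEmbedding]
  constructor
  · rintro ⟨c, ⟨a, ha, rfl⟩, rfl⟩
    rw [nodeT_invol h]
    exact ha
  · intro hb
    exact ⟨nodeT M L w b, ⟨b, hb, rfl⟩, nodeT_invol h b⟩

lemma Q_map_iff (hL : 0 < L) (h : w * (2 * L) + 2 * L ≤ M) (S : Finset (Fin M)) :
    (bigP L R' (S.map (nodeT M L w).toEmbedding) p ∧ hitN L (S.map (nodeT M L w).toEmbedding) w)
      ↔ (bigP L R' S p ∧ hitN L S w) := by
  constructor
  · rintro ⟨h1, h2⟩
    have h3 := bigP_map hL h h1
    have h4 := hitN_map hL h h2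
    rw [map_map_node h] at h3 h4
    exact ⟨h3, h4⟩
  · rintro ⟨h1, h2⟩
    exact ⟨bigP_map hL h h1, hitN_map hL h h2⟩

end closure

/-- The Fourier side term of a swap. -/
noncomputable def termT (f : (Fin M → Bool) → ℝ) (π : Equiv.Perm (Fin M)) (S : Finset (Fin M)) : ℝ :=
  (fh f S - fh f (S.map π.toEmbedding)) ^ 2

lemma term_of_not_hit {L w : ℕ} (hL : 0 < L) (h : w * (2 * L) + 2 * L ≤ M)
    (f : (Fin M → Bool) → ℝ) {S : Finset (Fin M)} (hS : ¬ hitN L S w) :
    termT f (nodeT M L w) S = 0 := by
  unfold termT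
  have : S.map (nodeT M L w).toEmbedding = S := by
    apply map_self_of_fix
    intro a ha
    apply nodeT_of_ne hL h
    intro e
    exact hS ⟨a, ha, e⟩
  rw [this]
  simp

lemma sens_node_eq {L w : ℕ} (h : w * (2 * L) + 2 * L ≤ M) (f : (Fin M → Bool) → ℝ) :
    sens f (nodeT M L w) = ∑ S : Finset (Fin M), termT f (nodeT M L w) S := by
  rw [sens_eq]
  refine Finset.sum_congr rfl fun S _ => ?_
  unfold termT
  rw [nodeT_symm h]

/-- The Q part of a swap. -/
lemma Qpart_le {L R' p w : ℕ} (hL : 0 < L) (h : w * (2 * L) + 2 * L ≤ M) (f : (Fin M → Bool) → ℝ) :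
    ∑ S : Finset (Fin M), (if bigP L R' S p ∧ hitN L S w then termT f (nodeT M L w) S else 0)
      ≤ 4 * ∑ S : Finset (Fin M), (if bigP L R' S p ∧ hitN L S w then fh f S ^ 2 else 0) := by
  set T := nodeT M L w with hT
  set Q : Finset (Fin M) → Prop := fun S => bigP L R' S p ∧ hitN L S w with hQ
  have h1 : ∀ S : Finset (Fin M), (if Q S then termT f T S else 0)
      ≤ 2 * (if Q S then fh f S ^ 2 else 0) + 2 * (if Q S then fh f (S.map T.toEmbedding) ^ 2 else 0) := by
    intro S
    split_ifs
    · unfold termT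
      nlinarith [sq_nonneg (fh f S + fh f (S.map T.toEmbedding))]
    · simp
  have h2 : ∑ S : Finset (Fin M), (if Q S then fh f (S.map T.toEmbedding) ^ 2 else 0)
      = ∑ S : Finset (Fin M), (if Q S then fh f S ^ 2 else 0) := by
    rw [← Equiv.sum_comp (Equiv.finsetCongr T) (fun S => if Q S then fh f S ^ 2 else 0)]
    refine Finset.sum_congr rfl fun S _ => ?_
    have : Equiv.finsetCongr T S = S.map T.toEmbedding := rfl
    rw [this]
    have h3 : Q (S.map T.toEmbedding) ↔ Q S := Q_map_iff hL h S
    simp only [h3]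
  calc _ ≤ ∑ S : Finset (Fin M), (2 * (if Q S then fh f S ^ 2 else 0)
          + 2 * (if Q S then fh f (S.map T.toEmbedding) ^ 2 else 0)) :=
        Finset.sum_le_sum fun S _ => h1 S
    _ = 4 * ∑ S : Finset (Fin M), (if Q S then fh f S ^ 2 else 0) := by
        rw [Finset.sum_add_distrib, ← Finset.mul_sum, ← Finset.mul_sum, h2]
        ring

/-- Counting the nodes hit. -/
lemma count_nodes {L R' p : ℕ} (hR : 0 < R') (S : Finset (Fin M)) :
    ((Finset.range R').filter (fun v => hitN L S (p * R' + v))).card ≤ (hits L R' S p).card := by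
  classical
  have : (Finset.range R').filter (fun v => hitN L S (p * R' + v))
      ⊆ (hits L R' S p).image (fun b => b / 2 - p * R') := by
    intro v hv
    rw [Finset.mem_filter, Finset.mem_range] at hv
    obtain ⟨hv1, a, ha, e⟩ := hv
    rw [Finset.mem_image]
    refine ⟨a.val / L, ?_, ?_⟩
    · unfold hits
      rw [Finset.mem_image]
      exact ⟨a, Finset.mem_filter.mpr ⟨ha, node_parent hR hv1 e⟩, rfl⟩
    · rw [← div2L, e]
      omega
  calc _ ≤ _ := Finset.card_le_card this
    _ ≤ _ := Finset.card_image_le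

lemma two_le_hits {L R' p : ℕ} {S : Finset (Fin M)} (h : bigP L R' S p) :
    2 ≤ (hits L R' S p).card := by
  obtain ⟨a, ha, a', ha', e, e', hne⟩ := h
  have h1 : 1 < (hits L R' S p).card := by
    rw [Finset.one_lt_card]
    refine ⟨a.val / L, ?_, a'.val / L, ?_, hne⟩
    · exact Finset.mem_image.mpr ⟨a, Finset.mem_filter.mpr ⟨ha, e⟩, rfl⟩
    · exact Finset.mem_image.mpr ⟨a', Finset.mem_filter.mpr ⟨ha', e'⟩, rfl⟩
  omega

/-- The count of the pairs (node, big set). -/
lemma count_Q {L R' p : ℕ} (hR : 0 < R') (S : Finset (Fin M)) (x : ℝ) (hx : 0 ≤ x) :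
    ∑ v ∈ Finset.range R', (if bigP L R' S p ∧ hitN L S (p * R' + v) then x else 0)
      ≤ 2 * (x * (((hits L R' S p).card - 1 : ℕ) : ℝ)) := by
  by_cases hb : bigP L R' S p
  · simp only [hb, true_and]
    rw [Finset.sum_ite, Finset.sum_const_zero, add_zero, Finset.sum_const, nsmul_eq_mul]
    have h1 := count_nodes (L := L) (p := p) hR S
    have h2 := two_le_hits hb
    set c := ((Finset.range R').filter (fun v => hitN L S (p * R' + v))).card
    set h := (hits L R' S p).card
    have h3 : (c : ℝ) ≤ 2 * ((h - 1 : ℕ) : ℝ) := by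
      have : c ≤ 2 * (h - 1) := by omega
      exact_mod_cast this
    nlinarith
  · simp only [hb, false_and, if_false, Finset.sum_const_zero]
    positivity

section parent

variable {L R' p K v : ℕ}

lemma par_fit (hM : M = K * (2 * L * R')) (hp : p < K) :
    p * (2 * L * R') + 2 * L * R' ≤ M := by
  rw [hM]
  have : (p + 1) * (2 * L * R') ≤ K * (2 * L * R') := Nat.mul_le_mul_right _ hp
  calc _ = (p + 1) * (2 * L * R') := by ring
    _ ≤ _ := this

lemma node_start (v : ℕ) : (p * R' + v) * (2 * L) = p * (2 * L * R') + v * (2 * L) := by ring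

lemma node_room (hv : v < R') : v * (2 * L) + 2 * L ≤ 2 * L * R' := by
  have : (v + 1) * (2 * L) ≤ R' * (2 * L) := Nat.mul_le_mul_right _ hv
  calc _ = (v + 1) * (2 * L) := by ring
    _ ≤ R' * (2 * L) := this
    _ = _ := by ring

lemma node_fit (hM : M = K * (2 * L * R')) (hp : p < K) (hv : v < R') :
    (p * R' + v) * (2 * L) + 2 * L ≤ M := by
  have h1 := par_fit hM hp
  have h2 := node_room (L := L) hv
  rw [node_start]
  omega

lemma parU_of_ne (hL : 0 < L) (hR : 0 < R') (hfit : p * (2 * L * R') + 2 * L * R' ≤ M) (k : ℕ)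
    {a : Fin M} (ha : a.val / (2 * L * R') ≠ p) : parU M L R' p k a = a := by
  apply Fin.ext
  unfold parU
  rw [rot_apply_val hfit]
  apply rn_of_not_mem
  rintro ⟨h1, h2⟩
  exact ha (div_of_mem (by positivity) h1 h2)

lemma parU_up (hfit : p * (2 * L * R') + 2 * L * R' ≤ M) {k : ℕ} {a : Fin M}
    (h1 : p * (2 * L * R') ≤ a.val) (h2 : a.val + k < p * (2 * L * R') + 2 * L * R') :
    (parU M L R' p k a).val = a.val + k := by
  unfold parU
  rw [rot_apply_val hfit]
  exact rn_up h1 h2

/-- Outside the big case, only one node is hit and its swap is a parent rotation. -/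
lemma term_small (hL : 0 < L) (hR : 0 < R') (hM : M = K * (2 * L * R')) (hp : p < K) (hv : v < R')
    (f : (Fin M → Bool) → ℝ) {S : Finset (Fin M)} (hb : ¬ bigP L R' S p)
    {a₀ : Fin M} (ha₀ : a₀ ∈ S) (e₀ : a₀.val / (2 * L) = p * R' + v) :
    termT f (nodeT M L (p * R' + v)) S
      ≤ (fh f S - fh f (S.map (parU M L R' p L).toEmbedding)) ^ 2
        + (fh f S - fh f (S.map (parU M L R' p L).symm.toEmbedding)) ^ 2 := by
  have hfit := par_fit hM hp
  have hroom := node_room (L := L) hv
  have hnode := node_fit hM hp hv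
  set w := p * R' + v with hw
  have hstart : w * (2 * L) = p * (2 * L * R') + v * (2 * L) := node_start v
  have hpar₀ : a₀.val / (2 * L * R') = p := node_parent hR hv e₀
  have hsame : ∀ a ∈ S, a.val / (2 * L * R') = p → a.val / L = a₀.val / L := by
    intro a ha hap
    by_contra hne
    exact hb ⟨a, ha, a₀, ha₀, hap, hpar₀, hne⟩
  have houtT : ∀ a : Fin M, a.val / (2 * L * R') ≠ p → nodeT M L w a = a := by
    intro a hap
    apply nodeT_of_ne hL hnode
    intro hh
    exact hap (node_parent hR hv hh)
  rcases node_cases hL e₀ with hcase | hcase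
  · -- the low half: the swap is the rotation upward
    have hmap : S.map (nodeT M L w).toEmbedding = S.map (parU M L R' p L).toEmbedding := by
      apply map_congr_perm
      intro a ha
      by_cases hap : a.val / (2 * L * R') = p
      · have h1 := hsame a ha hap
        rw [hcase] at h1
        apply Fin.ext
        rw [nodeT_low hL hnode h1]
        have h2 := mem_of_div hL h1
        have e : 2 * w * L = w * (2 * L) := by ring
        rw [e] at h2
        rw [parU_up hfit]
        · omega
        · omega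
      · rw [houtT a hap, parU_of_ne hL hR hfit L hap]
    unfold termT
    rw [hmap]
    nlinarith [sq_nonneg (fh f S - fh f (S.map (parU M L R' p L).symm.toEmbedding))]
  · -- the high half: the swap is the rotation downward
    have hmap : S.map (nodeT M L w).toEmbedding = S.map (parU M L R' p L).symm.toEmbedding := by
      apply map_congr_perm
      intro a ha
      rw [Equiv.eq_symm_apply]
      by_cases hap : a.val / (2 * L * R') = p
      · have h1 := hsame a ha hap
        rw [hcase] at h1
        apply Fin.ext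
        have h2 := mem_of_div hL h1
        have e : (2 * w + 1) * L = w * (2 * L) + L := by ring
        rw [e] at h2
        have h3 := nodeT_high hL hnode h1
        rw [parU_up hfit]
        · rw [h3]; omega
        · rw [h3]; omega
        · rw [h3]; omega
      · rw [houtT a hap, parU_of_ne hL hR hfit L hap]
    unfold termT
    rw [hmap]
    nlinarith [sq_nonneg (fh f S - fh f (S.map (parU M L R' p L).toEmbedding))]

/-- The non-Q part, summed over the children of one parent, for one Fourier set. -/
lemma Bpart (hL : 0 < L) (hR : 0 < R') (hM : M = K * (2 * L * R')) (hp : p < K)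
    (f : (Fin M → Bool) → ℝ) (S : Finset (Fin M)) :
    ∑ v ∈ Finset.range R', (if bigP L R' S p ∧ hitN L S (p * R' + v) then 0
        else termT f (nodeT M L (p * R' + v)) S)
      ≤ (fh f S - fh f (S.map (parU M L R' p L).toEmbedding)) ^ 2
        + (fh f S - fh f (S.map (parU M L R' p L).symm.toEmbedding)) ^ 2 := by
  set X := (fh f S - fh f (S.map (parU M L R' p L).toEmbedding)) ^ 2 with hX
  set Y := (fh f S - fh f (S.map (parU M L R' p L).symm.toEmbedding)) ^ 2 with hY
  have hX0 : 0 ≤ X := sq_nonneg _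
  have hY0 : 0 ≤ Y := sq_nonneg _
  by_cases hb : bigP L R' S p
  · have : ∀ v ∈ Finset.range R', (if bigP L R' S p ∧ hitN L S (p * R' + v) then (0 : ℝ)
        else termT f (nodeT M L (p * R' + v)) S) = 0 := by
      intro v hv
      split_ifs with h1
      · rfl
      · have hv' := Finset.mem_range.mp hv
        apply term_of_not_hit hL (node_fit hM hp hv')
        intro h2
        exact h1 ⟨hb, h2⟩
    rw [Finset.sum_eq_zero this]
    positivity
  · simp only [hb, false_and, if_false]
    by_cases hex : ∃ v₀ ∈ Finset.range R', hitN L S (p * R' + v₀)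
    · obtain ⟨v₀, hv₀, a₀, ha₀, e₀⟩ := hex
      have hv₀' := Finset.mem_range.mp hv₀
      rw [Finset.sum_eq_single_of_mem v₀ hv₀]
      · exact term_small hL hR hM hp hv₀' f hb ha₀ e₀
      · intro v hv hne
        have hv' := Finset.mem_range.mp hv
        apply term_of_not_hit hL (node_fit hM hp hv')
        rintro ⟨a, ha, e⟩
        apply hne
        have h1 : a.val / (2 * L * R') = p := node_parent hR hv' e
        have h2 : a₀.val / (2 * L * R') = p := node_parent hR hv₀' e₀
        have h3 : a.val / L = a₀.val / L := by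
          by_contra hh
          exact hb ⟨a, ha, a₀, ha₀, h1, h2, hh⟩
        have h4 : a.val / (2 * L) = a₀.val / (2 * L) := by
          rw [div2L, div2L, h3]
        rw [e, e₀] at h4
        omega
    · push Not at hex
      have : ∀ v ∈ Finset.range R', termT f (nodeT M L (p * R' + v)) S = 0 := by
        intro v hv
        exact term_of_not_hit hL (node_fit hM hp (Finset.mem_range.mp hv)) f (hex v hv)
      rw [Finset.sum_eq_zero this]
      positivity

/-- The main estimate over one parent block. -/
theorem star (hL : 0 < L) (hR : 0 < R') (hM : M = K * (2 * L * R')) (hp : p < K)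
    (f : (Fin M → Bool) → ℝ) :
    ∑ v ∈ Finset.range R', sens f (nodeT M L (p * R' + v))
      ≤ 8 * ∑ S : Finset (Fin M), (fh f S ^ 2 * (((hits L R' S p).card - 1 : ℕ) : ℝ))
        + 2 * sens f (parU M L R' p L) := by
  have hsplit : ∀ v ∈ Finset.range R', sens f (nodeT M L (p * R' + v))
      ≤ 4 * (∑ S : Finset (Fin M), (if bigP L R' S p ∧ hitN L S (p * R' + v) then fh f S ^ 2 else 0))
        + ∑ S : Finset (Fin M), (if bigP L R' S p ∧ hitN L S (p * R' + v) then 0
            else termT f (nodeT M L (p * R' + v)) S) := by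
    intro v hv
    have hv' := Finset.mem_range.mp hv
    rw [sens_node_eq (node_fit hM hp hv')]
    have h1 := Qpart_le (R' := R') (p := p) hL (node_fit hM hp hv') f
    have h2 : ∑ S : Finset (Fin M), termT f (nodeT M L (p * R' + v)) S
        = ∑ S : Finset (Fin M), (if bigP L R' S p ∧ hitN L S (p * R' + v)
            then termT f (nodeT M L (p * R' + v)) S else 0)
          + ∑ S : Finset (Fin M), (if bigP L R' S p ∧ hitN L S (p * R' + v) then 0
            else termT f (nodeT M L (p * R' + v)) S) := by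
      rw [← Finset.sum_add_distrib]
      refine Finset.sum_congr rfl fun S _ => ?_
      split_ifs <;> simp
    rw [h2]
    linarith
  have hsum1 : ∑ v ∈ Finset.range R', (∑ S : Finset (Fin M),
        (if bigP L R' S p ∧ hitN L S (p * R' + v) then fh f S ^ 2 else 0))
      ≤ 2 * ∑ S : Finset (Fin M), (fh f S ^ 2 * (((hits L R' S p).card - 1 : ℕ) : ℝ)) := by
    rw [Finset.sum_comm, Finset.mul_sum]
    exact Finset.sum_le_sum fun S _ => count_Q hR S _ (sq_nonneg _)
  have hsum2 : ∑ v ∈ Finset.range R', (∑ S : Finset (Fin M),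
        (if bigP L R' S p ∧ hitN L S (p * R' + v) then 0
            else termT f (nodeT M L (p * R' + v)) S))
      ≤ 2 * sens f (parU M L R' p L) := by
    rw [Finset.sum_comm]
    have h3 : sens f (parU M L R' p L) + sens f (parU M L R' p L).symm
        = ∑ S : Finset (Fin M), ((fh f S - fh f (S.map (parU M L R' p L).toEmbedding)) ^ 2
        + (fh f S - fh f (S.map (parU M L R' p L).symm.toEmbedding)) ^ 2) := by
      rw [sens_eq, sens_eq, ← Finset.sum_add_distrib]
      refine Finset.sum_congr rfl fun S _ => ?_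
      have : (parU M L R' p L).symm.symm = parU M L R' p L := rfl
      rw [this]
      ring
    rw [sens_symm] at h3
    calc _ ≤ ∑ S : Finset (Fin M), ((fh f S - fh f (S.map (parU M L R' p L).toEmbedding)) ^ 2
        + (fh f S - fh f (S.map (parU M L R' p L).symm.toEmbedding)) ^ 2) :=
          Finset.sum_le_sum fun S _ => Bpart hL hR hM hp f S
      _ = _ := by rw [← h3]; ring
  calc ∑ v ∈ Finset.range R', sens f (nodeT M L (p * R' + v))
      ≤ ∑ v ∈ Finset.range R', (4 * (∑ S : Finset (Fin M),
            (if bigP L R' S p ∧ hitN L S (p * R' + v) then fh f S ^ 2 else 0))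
        + ∑ S : Finset (Fin M), (if bigP L R' S p ∧ hitN L S (p * R' + v) then 0
            else termT f (nodeT M L (p * R' + v)) S)) := Finset.sum_le_sum hsplit
    _ = 4 * (∑ v ∈ Finset.range R', (∑ S : Finset (Fin M),
            (if bigP L R' S p ∧ hitN L S (p * R' + v) then fh f S ^ 2 else 0)))
        + ∑ v ∈ Finset.range R', (∑ S : Finset (Fin M),
            (if bigP L R' S p ∧ hitN L S (p * R' + v) then 0
            else termT f (nodeT M L (p * R' + v)) S)) := by
        rw [Finset.sum_add_distrib, Finset.mul_sum]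
    _ ≤ _ := by linarith

end parent

/-- The number of scale `L` blocks hit by `S`. -/
noncomputable def hcount (L : ℕ) (S : Finset (Fin M)) : ℕ := (S.image (fun a => a.val / L)).card

/-- Telescoping identity for the excess hits of the parents. -/
lemma sum_excess {L R' K : ℕ} (hL : 0 < L) (hR : 0 < R') (hM : M = K * (2 * L * R'))
    (S : Finset (Fin M)) :
    (∑ p ∈ Finset.range K, (((hits L R' S p).card - 1 : ℕ) : ℝ))
      = (hcount L S : ℝ) - hcount (2 * L * R') S := by
  classical
  set I := S.image (fun a => a.val / L) with hI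
  set g : ℕ → ℕ := fun b => b / (2 * R') with hg
  have hdiv : ∀ a : ℕ, a / L / (2 * R') = a / (2 * L * R') := by
    intro a
    rw [Nat.div_div_eq_div_mul]
    congr 1
    ring
  have hJ : I.image g = S.image (fun a => a.val / (2 * L * R')) := by
    rw [hI, Finset.image_image]
    apply Finset.image_congr
    intro a _
    exact hdiv a.val
  have hfib : ∀ p, hits L R' S p = I.filter (fun b => g b = p) := by
    intro p
    ext b
    simp only [hits, hI, hg, Finset.mem_image, Finset.mem_filter]
    constructor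
    · rintro ⟨a, ⟨ha, e⟩, rfl⟩
      exact ⟨⟨a, ha, rfl⟩, by rw [hdiv]; exact e⟩
    · rintro ⟨⟨a, ha, rfl⟩, e⟩
      exact ⟨a, ⟨ha, by rw [hdiv] at e; exact e⟩, rfl⟩
  have hcard : I.card = ∑ p ∈ I.image g, (I.filter (fun b => g b = p)).card :=
    Finset.card_eq_sum_card_image g I
  have hsub : I.image g ⊆ Finset.range K := by
    intro p hp
    rw [hJ, Finset.mem_image] at hp
    obtain ⟨a, _, rfl⟩ := hp
    rw [Finset.mem_range, Nat.div_lt_iff_lt_mul (by positivity), ← hM]
    exact a.2
  have hzero : ∀ p ∈ Finset.range K, p ∉ I.image g →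
      (((hits L R' S p).card - 1 : ℕ) : ℝ) = 0 := by
    intro p _ hp
    rw [hfib]
    have : I.filter (fun b => g b = p) = ∅ := by
      apply Finset.filter_eq_empty_iff.mpr
      intro b hb hgb
      exact hp (Finset.mem_image.mpr ⟨b, hb, hgb⟩)
    rw [this]
    simp
  rw [← Finset.sum_subset hsub hzero]
  have hpos : ∀ p ∈ I.image g, 1 ≤ (hits L R' S p).card := by
    intro p hp
    rw [hfib]
    obtain ⟨b, hb, e⟩ := Finset.mem_image.mp hp
    exact Finset.card_pos.mpr ⟨b, Finset.mem_filter.mpr ⟨hb, e⟩⟩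
  have h1 : ∑ p ∈ I.image g, (((hits L R' S p).card - 1 : ℕ) : ℝ)
      = ∑ p ∈ I.image g, ((hits L R' S p).card : ℝ) - (I.image g).card := by
    rw [Finset.card_eq_sum_ones, Nat.cast_sum, ← Finset.sum_sub_distrib]
    refine Finset.sum_congr rfl fun p hp => ?_
    rw [Nat.cast_sub (hpos p hp)]
  rw [h1]
  have h2 : ∑ p ∈ I.image g, ((hits L R' S p).card : ℝ) = I.card := by
    rw [hcard, Nat.cast_sum]
    refine Finset.sum_congr rfl fun p _ => ?_
    rw [hfib]
  rw [h2]
  unfold hcount
  rw [← hI, hJ]

end Vale.Agent.Lib.P238
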