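import Vale.Agent.Lib.P238.Cube

/-!
The Bonami lemma and the low degree estimate behind the KKL theorem.
-/

set_option linter.unusedSectionVars false
set_option linter.unusedSimpArgs false
set_option linter.unusedVariables false

namespace Vale.Agent.Lib.P238

open Finset

variable {ι : Type*} [Fintype ι] [DecidableEq ι]

/-- Cauchy-Schwarz for the expectation. -/
lemma ex_cs (f g : (ι → Bool) → ℝ) :
    ex (fun x => f x * g x) ^ 2 ≤ ex (fun x => f x ^ 2) * ex (fun x => g x ^ 2) := by
  have h := Finset.sum_mul_sq_le_sq_mul_sq (Finset.univ : Finset (ι → Bool)) f g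
  unfold ex
  have hp : (0 : ℝ) < 2 ^ Fintype.card ι := two_pow_pos
  rw [div_pow, div_mul_div_comm, ← pow_two]
  exact div_le_div_of_nonneg_right h (by positivity)

/-- A polynomial supported on subsets of `A`. -/
noncomputable def polyOn (A : Finset ι) (a : Finset ι → ℝ) (x : ι → Bool) : ℝ :=
  ∑ S ∈ A.powerset, a S * chi S x

lemma polyOn_insert {A : Finset ι} {i : ι} (hi : i ∉ A) (a : Finset ι → ℝ) (x : ι → Bool) :
    polyOn (insert i A) a x = polyOn A a x + sg (x i) * polyOn A (fun S => a (insert i S)) x := by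
  unfold polyOn
  rw [Finset.sum_powerset_insert hi, Finset.mul_sum]
  congr 1
  refine Finset.sum_congr rfl fun S hS => ?_
  have hiS : i ∉ S := fun h => hi (Finset.mem_powerset.mp hS h)
  unfold chi
  rw [Finset.prod_insert hiS]
  ring

lemma chi_flp_not_mem {S : Finset ι} {i : ι} (hi : i ∉ S) (x : ι → Bool) :
    chi S (flp i x) = chi S x := by
  rw [chi_flp, if_neg hi, one_mul]

lemma polyOn_flp {A : Finset ι} {i : ι} (hi : i ∉ A) (a : Finset ι → ℝ) (x : ι → Bool) :
    polyOn A a (flp i x) = polyOn A a x := by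
  unfold polyOn
  refine Finset.sum_congr rfl fun S hS => ?_
  rw [chi_flp_not_mem (fun h => hi (Finset.mem_powerset.mp hS h))]

lemma sg_flp (i : ι) (x : ι → Bool) : sg (flp i x i) = - sg (x i) := by
  simp [flp, sg_not]

lemma ex_avg_flp (i : ι) (F : (ι → Bool) → ℝ) :
    ex F = ex (fun x => (F x + F (flp i x)) / 2) := by
  have h1 := ex_flp i F
  have : ex (fun x => (F x + F (flp i x)) / 2) = (ex F + ex (fun x => F (flp i x))) / 2 := by
    have h2 : ∀ x, (F x + F (flp i x)) / 2 = (1 / 2) * (F x + F (flp i x)) := fun x => by ring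
    rw [ex_congr h2, ex_mul_left, ex_add]
    ring
  rw [this, h1]
  ring

lemma sg_sq (b : Bool) : sg b ^ 2 = 1 := by cases b <;> simp

/-- The Bonami lemma. -/
theorem bonami (A : Finset ι) :
    ∀ (d : ℕ) (a : Finset ι → ℝ), (∀ S, S ⊆ A → d < S.card → a S = 0) →
      ex (fun x => polyOn A a x ^ 4) ≤ 9 ^ d * (ex (fun x => polyOn A a x ^ 2)) ^ 2 := by
  induction A using Finset.induction_on with
  | empty =>
    intro d a _
    have h : ∀ x : ι → Bool, polyOn (∅ : Finset ι) a x = a ∅ := by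
      intro x
      simp [polyOn, chi]
    have e1 : ex (fun x => polyOn (∅ : Finset ι) a x ^ 4) = a ∅ ^ 4 := by
      rw [ex_congr (fun x => by rw [h x]), ex_const]
    have e2 : ex (fun x => polyOn (∅ : Finset ι) a x ^ 2) = a ∅ ^ 2 := by
      rw [ex_congr (fun x => by rw [h x]), ex_const]
    rw [e1, e2]
    have h9 : (1 : ℝ) ≤ 9 ^ d := one_le_pow₀ (by norm_num)
    have : (a ∅ ^ 2) ^ 2 = a ∅ ^ 4 := by ring
    rw [this]
    nlinarith [pow_nonneg (sq_nonneg (a ∅)) 2, sq_nonneg (a ∅ ^ 2)]
  | insert i A hi ih =>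
    intro d a ha
    set P : (ι → Bool) → ℝ := polyOn A a with hP
    set Q : (ι → Bool) → ℝ := polyOn A (fun S => a (insert i S)) with hQ
    have hfull : ∀ x, polyOn (insert i A) a x = P x + sg (x i) * Q x := polyOn_insert hi a
    have hPf : ∀ x, P (flp i x) = P x := polyOn_flp hi a
    have hQf : ∀ x, Q (flp i x) = Q x := polyOn_flp hi _
    have e2 : ex (fun x => polyOn (insert i A) a x ^ 2)
        = ex (fun x => P x ^ 2) + ex (fun x => Q x ^ 2) := by
      rw [ex_avg_flp i, ← ex_add]
      refine ex_congr fun x => ?_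
      rw [hfull, hfull, hPf, hQf, sg_flp]
      have := sg_sq (x i)
      nlinarith
    have e4 : ex (fun x => polyOn (insert i A) a x ^ 4)
        = ex (fun x => P x ^ 4) + 6 * ex (fun x => P x ^ 2 * Q x ^ 2) + ex (fun x => Q x ^ 4) := by
      rw [ex_avg_flp i, ← ex_mul_left, ← ex_add, ← ex_add]
      refine ex_congr fun x => ?_
      rw [hfull, hfull, hPf, hQf, sg_flp]
      have h2 := sg_sq (x i)
      have h4 : sg (x i) ^ 4 = 1 := by
        have : sg (x i) ^ 4 = (sg (x i) ^ 2) ^ 2 := by ring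
        rw [this, h2]; norm_num
      have : ((P x + sg (x i) * Q x) ^ 4 + (P x + -sg (x i) * Q x) ^ 4) / 2
          = P x ^ 4 + 6 * (sg (x i) ^ 2 * (P x ^ 2 * Q x ^ 2)) + sg (x i) ^ 4 * Q x ^ 4 := by ring
      rw [this, h2, h4]
      ring
    rw [e2, e4]
    set p := ex (fun x => P x ^ 2) with hp
    set q := ex (fun x => Q x ^ 2) with hq
    have hp0 : 0 ≤ p := ex_nonneg fun _ => sq_nonneg _
    have hq0 : 0 ≤ q := ex_nonneg fun _ => sq_nonneg _
    have hP4 : ex (fun x => P x ^ 4) ≤ 9 ^ d * p ^ 2 := by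
      apply ih d a
      intro S hS hd
      exact ha S (hS.trans (Finset.subset_insert _ _)) hd
    cases d with
    | zero =>
      have hQ0 : ∀ x, Q x = 0 := by
        intro x
        rw [hQ]
        unfold polyOn
        refine Finset.sum_eq_zero fun S hS => ?_
        have hiS : i ∉ S := fun h => hi (Finset.mem_powerset.mp hS h)
        show a (insert i S) * chi S x = 0
        rw [ha (insert i S) (Finset.insert_subset_insert _ (Finset.mem_powerset.mp hS))
          (by rw [Finset.card_insert_of_notMem hiS]; omega), zero_mul]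
      have hq00 : q = 0 := by
        rw [hq, ex_congr (fun x => by rw [hQ0 x]; norm_num : ∀ x, Q x ^ 2 = 0), ex_const]
      have e3 : ex (fun x => P x ^ 2 * Q x ^ 2) = 0 := by
        rw [ex_congr (fun x => by rw [hQ0 x]; norm_num : ∀ x, P x ^ 2 * Q x ^ 2 = 0), ex_const]
      have e5 : ex (fun x => Q x ^ 4) = 0 := by
        rw [ex_congr (fun x => by rw [hQ0 x]; norm_num : ∀ x, Q x ^ 4 = 0), ex_const]
      rw [e3, e5, hq00]
      simpa using hP4
    | succ d' =>
      have hQ4 : ex (fun x => Q x ^ 4) ≤ 9 ^ d' * q ^ 2 := by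
        apply ih d' (fun S => a (insert i S))
        intro S hS hd
        have hiS : i ∉ S := fun h => hi (hS h)
        exact ha (insert i S) (Finset.insert_subset_insert _ hS)
          (by rw [Finset.card_insert_of_notMem hiS]; omega)
      have hcs := ex_cs (fun x => P x ^ 2) (fun x => Q x ^ 2)
      have hE0 : 0 ≤ ex (fun x => P x ^ 2 * Q x ^ 2) :=
        ex_nonneg fun x => by positivity
      have e6 : ex (fun x => (P x ^ 2) ^ 2) = ex (fun x => P x ^ 4) :=
        ex_congr fun x => by ring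
      have e7 : ex (fun x => (Q x ^ 2) ^ 2) = ex (fun x => Q x ^ 4) :=
        ex_congr fun x => by ring
      simp only [e6, e7] at hcs
      have hP40 : 0 ≤ ex (fun x => P x ^ 4) := ex_nonneg fun x => by positivity
      have hQ40 : 0 ≤ ex (fun x => Q x ^ 4) := ex_nonneg fun x => by positivity
      have hbd : ex (fun x => P x ^ 2 * Q x ^ 2) ^ 2 ≤ (3 ^ (2 * d' + 1) * (p * q)) ^ 2 := by
        calc ex (fun x => P x ^ 2 * Q x ^ 2) ^ 2
            ≤ ex (fun x => P x ^ 4) * ex (fun x => Q x ^ 4) := hcs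
          _ ≤ (9 ^ (d' + 1) * p ^ 2) * (9 ^ d' * q ^ 2) :=
            mul_le_mul hP4 hQ4 hQ40 (by positivity)
          _ = (3 ^ (2 * d' + 1) * (p * q)) ^ 2 := by
            have key : (9 : ℝ) ^ (d' + 1) * 9 ^ d' = (3 ^ (2 * d' + 1)) ^ 2 := by
              have h93 : (9 : ℝ) = 3 ^ 2 := by norm_num
              rw [← pow_add, ← pow_mul, h93, ← pow_mul]
              congr 1
              ring
            calc (9 ^ (d' + 1) * p ^ 2) * (9 ^ d' * q ^ 2)
                = (9 ^ (d' + 1) * 9 ^ d') * (p * q) ^ 2 := by ring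
              _ = _ := by rw [key]; ring
      have hE : ex (fun x => P x ^ 2 * Q x ^ 2) ≤ 3 ^ (2 * d' + 1) * (p * q) :=
        le_of_sq_le_sq hbd (by positivity)
      have h9a : (9 : ℝ) ^ (d' + 1) = 3 * 3 ^ (2 * d' + 1) := by
        have h93 : (9 : ℝ) = 3 ^ 2 := by norm_num
        have h2 : 2 * (d' + 1) = (2 * d' + 1) + 1 := by ring
        rw [h93, ← pow_mul, h2, pow_succ]
        ring
      have h9b : (9 : ℝ) ^ d' ≤ 9 ^ (d' + 1) := by
        rw [pow_succ]
        have : (0 : ℝ) ≤ 9 ^ d' := by positivity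
        linarith
      have hq2 : 0 ≤ q ^ 2 := sq_nonneg q
      calc ex (fun x => P x ^ 4) + 6 * ex (fun x => P x ^ 2 * Q x ^ 2) + ex (fun x => Q x ^ 4)
          ≤ 9 ^ (d' + 1) * p ^ 2 + 6 * (3 ^ (2 * d' + 1) * (p * q)) + 9 ^ d' * q ^ 2 := by
            linarith
        _ ≤ 9 ^ (d' + 1) * (p + q) ^ 2 := by
            have : 9 ^ d' * q ^ 2 ≤ 9 ^ (d' + 1) * q ^ 2 :=
              mul_le_mul_of_nonneg_right h9b hq2
            rw [h9a] at *
            nlinarith

/-- The full polynomial with coefficient function `a`. -/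
lemma polyOn_univ (a : Finset ι → ℝ) (x : ι → Bool) :
    polyOn Finset.univ a x = ∑ S : Finset ι, a S * chi S x := by
  unfold polyOn
  rw [Finset.powerset_univ]

/-- Bonami for the full cube. -/
theorem bonami_univ (d : ℕ) (a : Finset ι → ℝ) (ha : ∀ S, d < S.card → a S = 0) :
    ex (fun x => (∑ S : Finset ι, a S * chi S x) ^ 4)
      ≤ 9 ^ d * (ex (fun x => (∑ S : Finset ι, a S * chi S x) ^ 2)) ^ 2 := by
  have := bonami (Finset.univ : Finset ι) d a (fun S _ h => ha S h)
  simpa only [polyOn_univ] using this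

/-- The part of the Fourier weight at `c` of degree at most `d`. -/
noncomputable def lowW (h : (ι → Bool) → ℝ) (c : ι) (d : ℕ) : ℝ :=
  ∑ S : Finset ι, if c ∈ S ∧ S.card ≤ d then fh h S ^ 2 else 0

lemma lowW_nonneg (h : (ι → Bool) → ℝ) (c : ι) (d : ℕ) : 0 ≤ lowW h c d := by
  unfold lowW
  refine Finset.sum_nonneg fun S _ => ?_
  split_ifs
  · exact sq_nonneg _
  · exact le_rfl

/-- The normalised influence. -/
noncomputable def infl (h : (ι → Bool) → ℝ) (c : ι) : ℝ := sflip h c / 4

lemma infl_nonneg (h : (ι → Bool) → ℝ) (c : ι) : 0 ≤ infl h c :=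
  div_nonneg (sflip_nonneg h c) (by norm_num)

lemma infl_eq (h : (ι → Bool) → ℝ) (c : ι) :
    infl h c = ∑ S : Finset ι, if c ∈ S then fh h S ^ 2 else 0 := by
  unfold infl
  rw [sflip_eq]
  ring

/-- The key low degree estimate. -/
theorem lowW_sq_le {h : (ι → Bool) → ℝ} (hh : IsSign h) (c : ι) (d : ℕ) :
    lowW h c d ^ 2 ≤ 9 ^ d * infl h c ^ 3 := by
  classical
  set G := lowW h c d with hG
  set Inf := infl h c with hInf
  have hG0 : 0 ≤ G := lowW_nonneg h c d
  have hI0 : 0 ≤ Inf := infl_nonneg h c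
  set b : Finset ι → ℝ := fun S => if c ∈ S ∧ S.card ≤ d then fh h S else 0 with hb
  set g : (ι → Bool) → ℝ := fun x => ∑ S : Finset ι, b S * chi S x with hg
  set D : (ι → Bool) → ℝ := fun x => (h x - h (flp c x)) / 2 with hD
  have hg2 : ex (fun x => g x ^ 2) = G := by
    rw [sum_sq_eq]
    rw [hG]
    unfold lowW
    refine Finset.sum_congr rfl fun S _ => ?_
    rw [hg, fh_poly, hb]
    by_cases hS : c ∈ S ∧ S.card ≤ d <;> simp [hS]
  have hfhD : ∀ S, fh D S = if c ∈ S then fh h S else 0 := by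
    intro S
    have : D = fun x => (1 / 2) * (h x - h (flp c x)) := by
      funext x
      simp only [hD]
      ring
    rw [this, fh_smul, fh_sub, fh_flp]
    split_ifs <;> ring
  have hgD : ex (fun x => g x * D x) = G := by
    rw [parseval, hG]
    unfold lowW
    refine Finset.sum_congr rfl fun S _ => ?_
    rw [hg, fh_poly, hfhD, hb]
    by_cases h1 : c ∈ S <;> by_cases h2 : S.card ≤ d <;> simp [h1, h2, pow_two]
  have hDval : ∀ x, D x = 0 ∨ D x = 1 ∨ D x = -1 := by
    intro x
    simp only [hD]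
    rcases hh x with h1 | h1 <;> rcases hh (flp c x) with h2 | h2 <;> rw [h1, h2] <;> norm_num
  have hD2 : ex (fun x => D x ^ 2) = Inf := by
    rw [hInf]
    unfold infl sflip
    rw [div_eq_mul_one_div, ← ex_mul_right]
    refine ex_congr fun x => ?_
    simp only [hD]
    ring
  set B : (ι → Bool) → ℝ := fun x => D x ^ 2 with hB
  have hBB : ∀ x, B x ^ 2 = B x := by
    intro x
    simp only [hB]
    rcases hDval x with h1 | h1 | h1 <;> rw [h1] <;> norm_num
  have hDB : ∀ x, g x * D x = (g x * B x) * D x := by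
    intro x
    simp only [hB]
    rcases hDval x with h1 | h1 | h1 <;> rw [h1] <;> ring
  set E := ex (fun x => g x ^ 2 * B x) with hE
  have hE0 : 0 ≤ E := ex_nonneg fun x => mul_nonneg (sq_nonneg _) (sq_nonneg _)
  have h1 : G ^ 2 ≤ E * Inf := by
    rw [← hgD, ex_congr hDB]
    have := ex_cs (fun x => g x * B x) D
    have e : ex (fun x => (g x * B x) ^ 2) = E := by
      rw [hE]
      refine ex_congr fun x => ?_
      rw [mul_pow, hBB]
    rw [e, hD2] at this
    exact this
  have h2 : E ^ 2 ≤ 9 ^ d * G ^ 2 * Inf := by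
    have hcs := ex_cs (fun x => g x ^ 2) B
    have e4 : ex (fun x => (g x ^ 2) ^ 2) = ex (fun x => g x ^ 4) :=
      ex_congr fun x => by ring
    have eB : ex (fun x => B x ^ 2) = Inf := by
      rw [ex_congr hBB]
      exact hD2
    rw [e4, eB] at hcs
    have hbon : ex (fun x => g x ^ 4) ≤ 9 ^ d * G ^ 2 := by
      have := bonami_univ d b (by
        intro S hS
        simp only [hb]
        rw [if_neg]
        intro hh2
        omega)
      rw [← hg2]
      exact this
    calc E ^ 2 ≤ ex (fun x => g x ^ 4) * Inf := hcs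
      _ ≤ 9 ^ d * G ^ 2 * Inf := mul_le_mul_of_nonneg_right hbon hI0
  by_cases hG00 : G = 0
  · rw [hG00]
    have : 0 ≤ (9 : ℝ) ^ d * Inf ^ 3 := by positivity
    simpa using this
  · have hGpos : 0 < G ^ 2 := by positivity
    have h3 : (G ^ 2) ^ 2 ≤ G ^ 2 * (9 ^ d * Inf ^ 3) := by
      calc (G ^ 2) ^ 2 ≤ (E * Inf) ^ 2 := by
            apply pow_le_pow_left₀ hGpos.le h1
        _ = E ^ 2 * Inf ^ 2 := by ring
        _ ≤ (9 ^ d * G ^ 2 * Inf) * Inf ^ 2 := by
            apply mul_le_mul_of_nonneg_right h2 (sq_nonneg _)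
        _ = G ^ 2 * (9 ^ d * Inf ^ 3) := by ring
    have h4 : G ^ 2 * G ^ 2 ≤ G ^ 2 * (9 ^ d * Inf ^ 3) := by
      calc G ^ 2 * G ^ 2 = (G ^ 2) ^ 2 := by ring
        _ ≤ _ := h3
    exact le_of_mul_le_mul_left h4 hGpos

lemma sum_ite_mem_const (S : Finset ι) (v : ℝ) :
    ∑ c : ι, (if c ∈ S then v else 0) = (S.card : ℝ) * v := by
  rw [Finset.sum_ite_mem, Finset.univ_inter, Finset.sum_const, nsmul_eq_mul]

/-- Total influence. -/
noncomputable def totI (h : (ι → Bool) → ℝ) : ℝ := ∑ c : ι, infl h c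

lemma totI_eq (h : (ι → Bool) → ℝ) :
    totI h = ∑ S : Finset ι, (S.card : ℝ) * fh h S ^ 2 := by
  unfold totI
  simp only [infl_eq]
  rw [Finset.sum_comm]
  refine Finset.sum_congr rfl fun S _ => ?_
  exact sum_ite_mem_const S _

/-- Variance bound when all influences are tiny: the KKL estimate. -/
theorem var_le_of_small_infl {h : (ι → Bool) → ℝ} (hh : IsSign h) {d : ℕ} (hd : 1 ≤ d)
    (hsmall : ∀ c, (d : ℝ) ^ 2 * 9 ^ d * infl h c ≤ 1) :
    1 - ex h ^ 2 ≤ 2 / d * totI h := by
  have hdpos : (0 : ℝ) < d := by exact_mod_cast hd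
  have hlow : ∀ c, lowW h c d ≤ infl h c / d := by
    intro c
    have h1 := lowW_sq_le hh c d
    have hI0 := infl_nonneg h c
    have h2 : lowW h c d ^ 2 ≤ (infl h c / d) ^ 2 := by
      have h3 : (9 : ℝ) ^ d * infl h c ^ 3 ≤ (infl h c / d) ^ 2 := by
        have h4 : (9 : ℝ) ^ d * infl h c ≤ 1 / d ^ 2 := by
          rw [le_div_iff₀ (by positivity)]
          have := hsmall c
          nlinarith
        calc (9 : ℝ) ^ d * infl h c ^ 3 = ((9 : ℝ) ^ d * infl h c) * infl h c ^ 2 := by ring
          _ ≤ (1 / d ^ 2) * infl h c ^ 2 := mul_le_mul_of_nonneg_right h4 (sq_nonneg _)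
          _ = (infl h c / d) ^ 2 := by field_simp
      linarith
    exact le_of_sq_le_sq h2 (by positivity)
  have hvar : 1 - ex h ^ 2 = ∑ S : Finset ι, if S = ∅ then 0 else fh h S ^ 2 := by
    have h1 := sum_fh_sq_of_sign hh
    have h2 : fh h ∅ = ex h := by
      unfold fh
      refine ex_congr fun x => ?_
      simp [chi]
    rw [← h1, ← h2]
    have h3 : ∑ S : Finset ι, (if S = ∅ then fh h S ^ 2 else 0) = fh h ∅ ^ 2 := by
      rw [Finset.sum_ite_eq' Finset.univ (∅ : Finset ι)]
      simp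
    rw [← h3, ← Finset.sum_sub_distrib]
    refine Finset.sum_congr rfl fun S _ => ?_
    split_ifs <;> ring
  have hterm : ∀ S : Finset ι, (if S = ∅ then (0 : ℝ) else fh h S ^ 2)
      ≤ (S.card : ℝ) * fh h S ^ 2 / d + ∑ c : ι, if c ∈ S ∧ S.card ≤ d then fh h S ^ 2 else 0 := by
    intro S
    have hs := sq_nonneg (fh h S)
    have hsum0 : 0 ≤ ∑ c : ι, if c ∈ S ∧ S.card ≤ d then fh h S ^ 2 else 0 :=
      Finset.sum_nonneg fun c _ => by split_ifs <;> positivity
    split_ifs with hS
    · positivity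
    · by_cases hc : S.card ≤ d
      · have hsum : ∑ c : ι, (if c ∈ S ∧ S.card ≤ d then fh h S ^ 2 else 0)
            = (S.card : ℝ) * fh h S ^ 2 := by
          have : ∀ c : ι, (if c ∈ S ∧ S.card ≤ d then fh h S ^ 2 else 0)
              = if c ∈ S then fh h S ^ 2 else 0 := by
            intro c
            by_cases h1 : c ∈ S <;> simp [h1, hc]
          simp only [this]
          exact sum_ite_mem_const S _
        rw [hsum]
        have h1 : (1 : ℝ) ≤ S.card := by
          have : 0 < S.card := Finset.card_pos.mpr (Finset.nonempty_iff_ne_empty.mpr hS)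
          exact_mod_cast this
        have h2 : 0 ≤ (S.card : ℝ) * fh h S ^ 2 / d := by positivity
        nlinarith
      · have h1 : (d : ℝ) ≤ S.card := by
          have : d ≤ S.card := by omega
          exact_mod_cast this
        have h2 : fh h S ^ 2 ≤ (S.card : ℝ) * fh h S ^ 2 / d := by
          rw [le_div_iff₀ hdpos]
          nlinarith
        linarith
  rw [hvar]
  calc ∑ S : Finset ι, (if S = ∅ then (0 : ℝ) else fh h S ^ 2)
      ≤ ∑ S : Finset ι, ((S.card : ℝ) * fh h S ^ 2 / d
          + ∑ c : ι, if c ∈ S ∧ S.card ≤ d then fh h S ^ 2 else 0) :=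
        Finset.sum_le_sum fun S _ => hterm S
    _ = totI h / d + ∑ c : ι, lowW h c d := by
        rw [Finset.sum_add_distrib, totI_eq, Finset.sum_div]
        congr 1
        unfold lowW
        rw [Finset.sum_comm]
    _ ≤ totI h / d + ∑ c : ι, infl h c / d := by
        have := Finset.sum_le_sum (fun c (_ : c ∈ Finset.univ) => hlow c)
        linarith
    _ = 2 / d * totI h := by
        rw [← Finset.sum_div]
        unfold totI
        ring

end Vale.Agent.Lib.P238
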