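import Vale.Agent.Lib.P238.Levels
import Mathlib.Analysis.Normed.Lp.lpSpace
import Mathlib.Topology.Algebra.Module.FiniteDimension

/-!
From cuts to real functions and to maps into the sequence space.
-/

set_option linter.unusedSectionVars false
set_option linter.unusedSimpArgs false
set_option linter.unusedVariables false

namespace Vale.Agent.Lib.P238

open Finset
open scoped Classical

section cone

variable {X : Type*} [Fintype X]

/-- The cut pseudometric of a set. -/
noncomputable def cutD (A : X → Bool) (x y : X) : ℝ := if A x = A y then 0 else 1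

/-- The pseudometric of a real function. -/
noncomputable def lineD (g : X → ℝ) (x y : X) : ℝ := |g x - g y|

theorem line_nonneg (Φ : (X → X → ℝ) →ₗ[ℝ] ℝ) (hcut : ∀ A : X → Bool, 0 ≤ Φ (cutD A))
    (g : X → ℝ) : 0 ≤ Φ (lineD g) := by
  induction hn : (Finset.univ.image g).card using Nat.strong_induction_on generalizing g with
  | _ n ih =>
    by_cases h1 : (Finset.univ.image g).card ≤ 1
    · have h0 : lineD g = 0 := by
        funext x y
        have : g x = g y := Finset.card_le_one.mp h1 _ (Finset.mem_image_of_mem g (Finset.mem_univ x)) _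
          (Finset.mem_image_of_mem g (Finset.mem_univ y))
        simp [lineD, this]
      rw [h0, map_zero]
    · push Not at h1
      set V := Finset.univ.image g with hV
      have hne : V.Nonempty := Finset.card_pos.mp (by omega)
      set v := V.min' hne with hv
      have hvV : v ∈ V := Finset.min'_mem V hne
      have hne2 : (V.erase v).Nonempty := by
        apply Finset.card_pos.mp
        rw [Finset.card_erase_of_mem hvV]
        omega
      set v' := (V.erase v).min' hne2 with hv'
      have hv'V : v' ∈ V.erase v := Finset.min'_mem _ hne2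
      have hvv' : v < v' := by
        have h2 := Finset.min'_le V v' (Finset.mem_of_mem_erase hv'V)
        have h3 := Finset.ne_of_mem_erase hv'V
        exact lt_of_le_of_ne h2 (Ne.symm h3)
      have hge : ∀ x, v ≤ g x := fun x => Finset.min'_le V _ (Finset.mem_image_of_mem g (Finset.mem_univ x))
      have hge' : ∀ x, g x ≠ v → v' ≤ g x := fun x hx =>
        Finset.min'_le _ _ (Finset.mem_erase.mpr ⟨hx, Finset.mem_image_of_mem g (Finset.mem_univ x)⟩)
      set g' : X → ℝ := fun x => if g x = v then v' else g x with hg'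
      have hsub : Finset.univ.image g' ⊆ V.erase v := by
        intro w hw
        obtain ⟨x, _, rfl⟩ := Finset.mem_image.mp hw
        simp only [hg']
        split_ifs with hx
        · exact hv'V
        · exact Finset.mem_erase.mpr ⟨hx, Finset.mem_image_of_mem g (Finset.mem_univ x)⟩
      have hcard : (Finset.univ.image g').card < n := by
        have := Finset.card_le_card hsub
        rw [Finset.card_erase_of_mem hvV] at this
        omega
      have h3 := ih _ hcard g' rfl
      have h4 := hcut (fun x => decide (g x = v))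
      have hdec : lineD g = lineD g' + (v' - v) • cutD (fun x => decide (g x = v)) := by
        funext x y
        simp only [lineD, cutD, hg', Pi.add_apply, Pi.smul_apply, smul_eq_mul]
        by_cases hx : g x = v <;> by_cases hy : g y = v
        · simp [hx, hy]
        · have := hge' y hy
          simp only [hx, hy, decide_true, decide_false, if_true, if_false]
          rw [abs_of_nonpos (by linarith), abs_of_nonpos (by linarith)]
          norm_num
        · have := hge' x hx
          simp only [hx, hy, decide_true, decide_false, if_true, if_false]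
          rw [abs_of_nonneg (by linarith), abs_of_nonneg (by linarith)]
          norm_num
        · simp [hx, hy]
      rw [hdec, map_add, map_smul, smul_eq_mul]
      have : 0 ≤ v' - v := by linarith
      positivity

/-- Passing to maps into the sequence space. -/
theorem ell1_nonneg (Φ : (X → X → ℝ) →ₗ[ℝ] ℝ) (hcut : ∀ A : X → Bool, 0 ≤ Φ (cutD A))
    (φ : X → lp (fun _ : ℕ => ℝ) 1) : 0 ≤ Φ (fun x y => ‖φ x - φ y‖) := by
  have hsum : HasSum (fun k : ℕ => lineD (fun x => (φ x : ℕ → ℝ) k))
      (fun x y => ‖φ x - φ y‖) := by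
    rw [Pi.hasSum]
    intro x
    rw [Pi.hasSum]
    intro y
    have h1 : ‖φ x - φ y‖ = ∑' k, ‖((φ x - φ y : lp (fun _ : ℕ => ℝ) 1) : ℕ → ℝ) k‖ := by
      have := lp.norm_eq_tsum_rpow (p := 1) (by norm_num) (φ x - φ y)
      simpa using this
    have h2 : Summable (fun k => ‖((φ x - φ y : lp (fun _ : ℕ => ℝ) 1) : ℕ → ℝ) k‖) := by
      have := (lp.memℓp (φ x - φ y)).summable (by norm_num)
      simpa using this
    rw [h1]
    have h4 : (fun k => lineD (fun x => (φ x : ℕ → ℝ) k) x y)
        = fun k => ‖((φ x - φ y : lp (fun _ : ℕ => ℝ) 1) : ℕ → ℝ) k‖ := by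
      funext k
      simp [lineD, Real.norm_eq_abs]
    rw [h4]
    exact h2.hasSum
  have hcont : Continuous Φ := LinearMap.continuous_of_finiteDimensional Φ
  have h5 := hsum.map Φ hcont
  exact h5.nonneg fun k => line_nonneg Φ hcut _

end cone

section apply

variable {M : ℕ}

/-- The linear functional averaging a pseudometric along a map of the cube. -/
noncomputable def avgL (τ : (Fin M → Bool) → (Fin M → Bool)) :
    ((Fin M → Bool) → (Fin M → Bool) → ℝ) →ₗ[ℝ] ℝ where
  toFun d := ex (fun x => d x (τ x))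
  map_add' d d' := by
    rw [← ex_add]
    rfl
  map_smul' c d := by
    simp only [RingHom.id_apply, smul_eq_mul, Pi.smul_apply]
    rw [ex_mul_left]

lemma avgL_apply (τ : (Fin M → Bool) → (Fin M → Bool)) (d : (Fin M → Bool) → (Fin M → Bool) → ℝ) :
    avgL τ d = ex (fun x => d x (τ x)) := rfl

/-- The sign function of a set. -/
noncomputable def sgnOf (A : (Fin M → Bool) → Bool) (x : Fin M → Bool) : ℝ := if A x then -1 else 1

lemma sgnOf_sign (A : (Fin M → Bool) → Bool) : IsSign (sgnOf A) := by
  intro x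
  unfold sgnOf
  by_cases h : A x = true <;> simp [h]

lemma sgnOf_sq (A : (Fin M → Bool) → Bool) (x y : Fin M → Bool) :
    (sgnOf A x - sgnOf A y) ^ 2 = 4 * cutD A x y := by
  unfold sgnOf cutD
  cases h1 : A x <;> cases h2 : A y <;> norm_num

lemma sens_cut (A : (Fin M → Bool) → Bool) (π : Equiv.Perm (Fin M)) :
    sens (sgnOf A) π = 4 * avgL (fun x => x ∘ π) (cutD A) := by
  unfold sens
  rw [avgL_apply, ← ex_mul_left]
  exact ex_congr fun x => sgnOf_sq A _ _

lemma sflip_cut (A : (Fin M → Bool) → Bool) (c : Fin M) :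
    sflip (sgnOf A) c = 4 * avgL (flp c) (cutD A) := by
  unfold sflip
  rw [avgL_apply, ← ex_mul_left]
  exact ex_congr fun x => sgnOf_sq A _ _

/-- The main inequality for maps into the sequence space. -/
theorem ell1_ineq {L₀ R' t d : ℕ} (hL : 0 < L₀) (hR : 0 < R') (hM : M = L₀ * (2 * R') ^ t)
    (hd : 1 ≤ d) (hdL : 2 * d ^ 3 * 9 ^ d ≤ L₀) (φ : (Fin M → Bool) → lp (fun _ : ℕ => ℝ) 1) :
    ∑ i ∈ Finset.range t, ∑ p ∈ Finset.range ((2 * R') ^ (t - 1 - i)), ∑ v ∈ Finset.range R',
        ex (fun x => ‖φ x - φ (x ∘ nodeT M (lev L₀ R' i) (p * R' + v))‖)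
      ≤ 4 / d * ∑ c : Fin M, ex (fun x => ‖φ x - φ (flp c x)‖)
        + 16 * d ^ 5 * 81 ^ d * ∑ u ∈ Finset.range ((2 * R') ^ t),
            ex (fun x => ‖φ x - φ (x ∘ rot M (u * L₀) L₀ 1)‖)
        + ∑ i ∈ Finset.range t, ∑ p ∈ Finset.range ((2 * R') ^ (t - 1 - i)),
            2 * (lev L₀ R' i : ℝ) * ex (fun x => ‖φ x - φ (x ∘ parU M (lev L₀ R' i) R' p 1)‖) := by
  set Φ : ((Fin M → Bool) → (Fin M → Bool) → ℝ) →ₗ[ℝ] ℝ :=
    ((4 / d : ℝ) • ∑ c : Fin M, avgL (flp c))
      + ((16 * d ^ 5 * 81 ^ d : ℝ) • ∑ u ∈ Finset.range ((2 * R') ^ t),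
          avgL (fun x => x ∘ rot M (u * L₀) L₀ 1))
      + (∑ i ∈ Finset.range t, ∑ p ∈ Finset.range ((2 * R') ^ (t - 1 - i)),
          (2 * (lev L₀ R' i : ℝ)) • avgL (fun x => x ∘ parU M (lev L₀ R' i) R' p 1))
      - (∑ i ∈ Finset.range t, ∑ p ∈ Finset.range ((2 * R') ^ (t - 1 - i)), ∑ v ∈ Finset.range R',
          avgL (fun x => x ∘ nodeT M (lev L₀ R' i) (p * R' + v))) with hΦ
  have happ : ∀ D : (Fin M → Bool) → (Fin M → Bool) → ℝ, Φ D =
      4 / d * ∑ c : Fin M, ex (fun x => D x (flp c x))
        + 16 * d ^ 5 * 81 ^ d * ∑ u ∈ Finset.range ((2 * R') ^ t),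
            ex (fun x => D x (x ∘ rot M (u * L₀) L₀ 1))
        + ∑ i ∈ Finset.range t, ∑ p ∈ Finset.range ((2 * R') ^ (t - 1 - i)),
            2 * (lev L₀ R' i : ℝ) * ex (fun x => D x (x ∘ parU M (lev L₀ R' i) R' p 1))
        - ∑ i ∈ Finset.range t, ∑ p ∈ Finset.range ((2 * R') ^ (t - 1 - i)), ∑ v ∈ Finset.range R',
            ex (fun x => D x (x ∘ nodeT M (lev L₀ R' i) (p * R' + v))) := by
    intro D
    simp only [hΦ, LinearMap.sub_apply, LinearMap.add_apply, LinearMap.smul_apply,
      LinearMap.sum_apply, smul_eq_mul, avgL_apply]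
  have hcut : ∀ A : (Fin M → Bool) → Bool, 0 ≤ Φ (cutD A) := by
    intro A
    have h1 := sign_ineq hL hR hM hd hdL (sgnOf_sign A)
    simp only [sens_cut, sflip_cut, avgL_apply] at h1
    rw [happ]
    have e1 : ∑ i ∈ Finset.range t, ∑ p ∈ Finset.range ((2 * R') ^ (t - 1 - i)), ∑ v ∈ Finset.range R',
        (4 * ex (fun x => cutD A x (x ∘ nodeT M (lev L₀ R' i) (p * R' + v))))
        = 4 * ∑ i ∈ Finset.range t, ∑ p ∈ Finset.range ((2 * R') ^ (t - 1 - i)), ∑ v ∈ Finset.range R',
        ex (fun x => cutD A x (x ∘ nodeT M (lev L₀ R' i) (p * R' + v))) := by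
      simp only [Finset.mul_sum]
    have e2 : ∑ c : Fin M, (4 * ex (fun x => cutD A x (flp c x)))
        = 4 * ∑ c : Fin M, ex (fun x => cutD A x (flp c x)) := by
      simp only [Finset.mul_sum]
    have e3 : ∑ u ∈ Finset.range ((2 * R') ^ t), (4 * ex (fun x => cutD A x (x ∘ rot M (u * L₀) L₀ 1)))
        = 4 * ∑ u ∈ Finset.range ((2 * R') ^ t), ex (fun x => cutD A x (x ∘ rot M (u * L₀) L₀ 1)) := by
      simp only [Finset.mul_sum]
    have e4 : ∑ i ∈ Finset.range t, ∑ p ∈ Finset.range ((2 * R') ^ (t - 1 - i)),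
          (2 * (lev L₀ R' i : ℝ) * (4 * ex (fun x => cutD A x (x ∘ parU M (lev L₀ R' i) R' p 1))))
        = 4 * ∑ i ∈ Finset.range t, ∑ p ∈ Finset.range ((2 * R') ^ (t - 1 - i)),
          (2 * (lev L₀ R' i : ℝ) * ex (fun x => cutD A x (x ∘ parU M (lev L₀ R' i) R' p 1))) := by
      simp only [Finset.mul_sum]
      refine Finset.sum_congr rfl fun i _ => Finset.sum_congr rfl fun p _ => ?_
      ring
    rw [e1, e2, e3, e4] at h1
    have e5 : ∀ a b : ℝ, a * (4 * b) = 4 * (a * b) := fun a b => by ring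
    rw [e5, e5] at h1
    linarith
  have := ell1_nonneg Φ hcut φ
  rw [happ] at this
  linarith

end apply

end Vale.Agent.Lib.P238
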