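import Mathlib

/-!
Edit distance on binary words, by the Wagner-Fischer recursion.
-/

namespace Vale.Agent.Lib.P238

/-- Unit cost edit distance (insertions, deletions, substitutions) of two binary words,
by the Wagner-Fischer recursion. -/
def ed : List Bool → List Bool → ℕ
  | [], ys => ys.length
  | x :: xs, [] => xs.length + 1
  | x :: xs, y :: ys =>
      min (ed xs (y :: ys) + 1) (min (ed (x :: xs) ys + 1) (ed xs ys + if x = y then 0 else 1))
termination_by xs ys => xs.length + ys.length

/-- Edit distance of two points of the cube, read as binary words of length `n`. -/
def edCube {n : ℕ} (x y : Fin n → Bool) : ℕ := ed (List.ofFn x) (List.ofFn y)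

end Vale.Agent.Lib.P238
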