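import Vale.Agent.Lib.P238.Defs

/-!
Basic properties of edit distance, from the recursion.
-/

set_option linter.unusedSectionVars false
set_option linter.unusedSimpArgs false
set_option linter.unusedVariables false

namespace Vale.Agent.Lib.P238

lemma ed_nil_left (ys : List Bool) : ed [] ys = ys.length := by
  rw [ed]

lemma ed_nil_right (xs : List Bool) : ed xs [] = xs.length := by
  cases xs with
  | nil => rw [ed]
  | cons x xs => rw [ed]; simp

lemma ed_cons_cons (x y : Bool) (xs ys : List Bool) :
    ed (x :: xs) (y :: ys)
      = min (ed xs (y :: ys) + 1) (min (ed (x :: xs) ys + 1) (ed xs ys + if x = y then 0 else 1)) := by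
  rw [ed]

lemma ed_cons_left_le (a : Bool) (xs ys : List Bool) : ed (a :: xs) ys ≤ ed xs ys + 1 := by
  cases ys with
  | nil => rw [ed_nil_right, ed_nil_right]; simp
  | cons y ys =>
    rw [ed_cons_cons]
    omega

lemma ed_cons_right_le (b : Bool) (xs ys : List Bool) : ed xs (b :: ys) ≤ ed xs ys + 1 := by
  cases xs with
  | nil => rw [ed_nil_left, ed_nil_left]; simp
  | cons x xs =>
    rw [ed_cons_cons]
    omega

lemma ed_self (xs : List Bool) : ed xs xs = 0 := by
  induction xs with
  | nil => rw [ed_nil_left]; rfl
  | cons x xs ih =>
    rw [ed_cons_cons, ih]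
    simp

lemma ed_len_left (xs ys : List Bool) : xs.length ≤ ed xs ys + ys.length := by
  induction h : xs.length + ys.length using Nat.strong_induction_on generalizing xs ys with
  | _ n ih =>
    cases xs with
    | nil => simp
    | cons x xs =>
      cases ys with
      | nil => rw [ed_nil_right]; simp
      | cons y ys =>
        rw [ed_cons_cons]
        have h1 := ih _ (by simp at h ⊢; omega) xs (y :: ys) rfl
        have h2 := ih _ (by simp at h ⊢; omega) (x :: xs) ys rfl
        have h3 := ih _ (by simp at h ⊢; omega) xs ys rfl
        simp only [List.length_cons] at h1 h2 h3 ⊢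
        split_ifs <;> omega

lemma ed_len_right (xs ys : List Bool) : ys.length ≤ ed xs ys + xs.length := by
  induction h : xs.length + ys.length using Nat.strong_induction_on generalizing xs ys with
  | _ n ih =>
    cases xs with
    | nil => rw [ed_nil_left]; simp
    | cons x xs =>
      cases ys with
      | nil => simp
      | cons y ys =>
        rw [ed_cons_cons]
        have h1 := ih _ (by simp at h ⊢; omega) xs (y :: ys) rfl
        have h2 := ih _ (by simp at h ⊢; omega) (x :: xs) ys rfl
        have h3 := ih _ (by simp at h ⊢; omega) xs ys rfl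
        simp only [List.length_cons] at h1 h2 h3 ⊢
        split_ifs <;> omega

lemma ed_append_left_le (u₁ u₂ v : List Bool) : ed (u₁ ++ u₂) v ≤ u₁.length + ed u₂ v := by
  induction u₁ with
  | nil => simp
  | cons a u ih =>
    have := ed_cons_left_le a (u ++ u₂) v
    simp only [List.cons_append, List.length_cons]
    omega

lemma ed_append_right_le (u v₁ v₂ : List Bool) : ed u (v₁ ++ v₂) ≤ v₁.length + ed u v₂ := by
  induction v₁ with
  | nil => simp
  | cons a v ih =>
    have := ed_cons_right_le a u (v ++ v₂)
    simp only [List.cons_append, List.length_cons]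
    omega

/-- Edit distance is subadditive under concatenation. -/
lemma ed_append_le (u₁ u₂ v₁ v₂ : List Bool) : ed (u₁ ++ u₂) (v₁ ++ v₂) ≤ ed u₁ v₁ + ed u₂ v₂ := by
  induction h : u₁.length + v₁.length using Nat.strong_induction_on generalizing u₁ v₁ with
  | _ n ih =>
    cases u₁ with
    | nil =>
      rw [ed_nil_left]
      exact ed_append_right_le _ _ _
    | cons a us =>
      cases v₁ with
      | nil =>
        rw [ed_nil_right]
        exact ed_append_left_le _ _ _
      | cons b vs =>
        simp only [List.cons_append]
        rw [ed_cons_cons, ed_cons_cons a b us vs]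
        have h1 := ih _ (by simp at h ⊢; omega) us (b :: vs) rfl
        have h2 := ih _ (by simp at h ⊢; omega) (a :: us) vs rfl
        have h3 := ih _ (by simp at h ⊢; omega) us vs rfl
        simp only [List.cons_append] at h1 h2 h3
        omega

/-- Any alignment splits along a factorization of the first word. -/
lemma ed_split (x₁ x₂ y : List Bool) :
    ∃ y₁ y₂, y = y₁ ++ y₂ ∧ ed x₁ y₁ + ed x₂ y₂ ≤ ed (x₁ ++ x₂) y := by
  induction h : x₁.length + y.length using Nat.strong_induction_on generalizing x₁ y with
  | _ n ih =>
    cases x₁ with
    | nil =>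
      refine ⟨[], y, rfl, ?_⟩
      rw [ed_nil_left]
      simp
    | cons a xs =>
      cases y with
      | nil =>
        refine ⟨[], [], rfl, ?_⟩
        rw [ed_nil_right, ed_nil_right, ed_nil_right]
        simp only [List.cons_append, List.length_cons, List.length_append]
        omega
      | cons b ys =>
        simp only [List.cons_append]
        rw [ed_cons_cons]
        have hmin : ∀ p q r : ℕ, (p ≤ min p (min q r) ∨ q ≤ min p (min q r) ∨ r ≤ min p (min q r)) := by
          intro p q r
          omega
        rcases hmin (ed (xs ++ x₂) (b :: ys) + 1) (ed (a :: (xs ++ x₂)) ys + 1)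
            (ed (xs ++ x₂) ys + if a = b then 0 else 1) with h1 | h1 | h1
        · obtain ⟨y₁, y₂, e, h2⟩ := ih _ (by simp at h ⊢; omega) xs (b :: ys) rfl
          refine ⟨y₁, y₂, e, le_trans ?_ h1⟩
          have := ed_cons_left_le a xs y₁
          omega
        · obtain ⟨y₁, y₂, e, h2⟩ := ih _ (by simp at h ⊢; omega) (a :: xs) ys rfl
          refine ⟨b :: y₁, y₂, by rw [e]; rfl, le_trans ?_ h1⟩
          have := ed_cons_right_le b (a :: xs) y₁
          simp only [List.cons_append] at h2
          omega
        · obtain ⟨y₁, y₂, e, h2⟩ := ih _ (by simp at h ⊢; omega) xs ys rfl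
          refine ⟨b :: y₁, y₂, by rw [e]; rfl, le_trans ?_ h1⟩
          have : ed (a :: xs) (b :: y₁) ≤ ed xs y₁ + if a = b then 0 else 1 := by
            rw [ed_cons_cons]
            omega
          omega

/-- Zero distance forces equality. -/
lemma ed_eq_zero {xs ys : List Bool} (h : ed xs ys = 0) : xs = ys := by
  induction xs generalizing ys with
  | nil =>
    rw [ed_nil_left] at h
    exact (List.length_eq_zero_iff.mp h).symm
  | cons x xs ih =>
    cases ys with
    | nil =>
      rw [ed_nil_right] at h
      simp at h
    | cons y ys =>
      rw [ed_cons_cons] at h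
      have h1 : ed xs ys + (if x = y then 0 else 1) = 0 := by omega
      have h2 : ed xs ys = 0 := by omega
      have h3 : x = y := by
        by_contra h4
        simp [h4] at h1
      rw [ih h2, h3]

/-- Substitution costs at most one. -/
lemma ed_set_le (xs : List Bool) (i : ℕ) (a : Bool) : ed xs (xs.set i a) ≤ 1 := by
  induction xs generalizing i with
  | nil => simp [ed_nil_left]
  | cons h t ih =>
    cases i with
    | zero =>
      rw [List.set_cons_zero, ed_cons_cons, ed_self]
      split_ifs <;> omega
    | succ i =>
      rw [List.set_cons_succ, ed_cons_cons]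
      have := ih i
      simp only [if_true]
      omega

/-- Rotating by one costs at most two. -/
lemma ed_rotate_one_le (b : List Bool) : ed b (b.rotate 1) ≤ 2 := by
  cases b with
  | nil => simp [ed_nil_left]
  | cons a t =>
    rw [List.rotate_cons_succ, List.rotate_zero]
    have h1 := ed_append_le [a] t [] (t ++ [a])
    have h2 := ed_append_le t [] t [a]
    have h3 : ed [a] [] = 1 := by rw [ed_nil_right]; rfl
    have h4 : ed ([] : List Bool) [a] = 1 := by rw [ed_nil_left]; rfl
    rw [ed_self, List.append_nil, h4] at h2
    simp only [List.singleton_append, List.nil_append] at h1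
    omega

end Vale.Agent.Lib.P238
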