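import Vale.Agent.Lib.P238.Cube

/-!
Cyclic rotations of a block of coordinates of `Fin M`.
-/

set_option linter.unusedSectionVars false
set_option linter.unusedSimpArgs false
set_option linter.unusedVariables false

namespace Vale.Agent.Lib.P238

/-- Rotation on natural numbers: the block `[s, s + l)` is rotated by `k`. -/
def rn (s l k a : ℕ) : ℕ := if s ≤ a ∧ a < s + l then s + (a - s + k) % l else a

lemma rn_of_mem {s l k a : ℕ} (h1 : s ≤ a) (h2 : a < s + l) : rn s l k a = s + (a - s + k) % l := by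
  simp [rn, h1, h2]

lemma rn_of_not_mem {s l k a : ℕ} (h : ¬ (s ≤ a ∧ a < s + l)) : rn s l k a = a := by
  simp [rn, h]

lemma rn_mem {s l k a : ℕ} (h1 : s ≤ a) (h2 : a < s + l) : s ≤ rn s l k a ∧ rn s l k a < s + l := by
  rw [rn_of_mem h1 h2]
  have hl : 0 < l := by omega
  have := Nat.mod_lt (a - s + k) hl
  omega

lemma rn_lt {M s l k a : ℕ} (h : s + l ≤ M) (ha : a < M) : rn s l k a < M := by
  by_cases hm : s ≤ a ∧ a < s + l
  · have := rn_mem (k := k) hm.1 hm.2
    omega
  · rw [rn_of_not_mem hm]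
    exact ha

lemma rn_add (s l k k' a : ℕ) : rn s l k (rn s l k' a) = rn s l (k + k') a := by
  by_cases hm : s ≤ a ∧ a < s + l
  · have hl : 0 < l := by omega
    have h2 := rn_mem (k := k') hm.1 hm.2
    rw [rn_of_mem h2.1 h2.2, rn_of_mem hm.1 hm.2, rn_of_mem hm.1 hm.2]
    congr 1
    have : s + (a - s + k') % l - s = (a - s + k') % l := by omega
    rw [this, Nat.mod_add_mod]
    congr 1
    omega
  · rw [rn_of_not_mem hm, rn_of_not_mem hm, rn_of_not_mem hm]

lemma rn_zero {s l a : ℕ} : rn s l 0 a = a := by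
  by_cases hm : s ≤ a ∧ a < s + l
  · rw [rn_of_mem hm.1 hm.2, add_zero, Nat.mod_eq_of_lt (by omega)]
    omega
  · rw [rn_of_not_mem hm]

lemma rn_self {s l a : ℕ} : rn s l l a = a := by
  by_cases hm : s ≤ a ∧ a < s + l
  · rw [rn_of_mem hm.1 hm.2, Nat.add_mod_right, Nat.mod_eq_of_lt (by omega)]
    omega
  · rw [rn_of_not_mem hm]

lemma rn_inj {s l k a b : ℕ} (h : rn s l k a = rn s l k b) : a = b := by
  by_cases ha : s ≤ a ∧ a < s + l
  · by_cases hb : s ≤ b ∧ b < s + l
    · rw [rn_of_mem ha.1 ha.2, rn_of_mem hb.1 hb.2] at h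
      have h2 : (a - s + k) % l = (b - s + k) % l := by omega
      have h3 : (a - s) ≡ (b - s) [MOD l] := Nat.ModEq.add_right_cancel' k h2
      have h4 : (a - s) % l = (b - s) % l := h3
      rw [Nat.mod_eq_of_lt (by omega), Nat.mod_eq_of_lt (by omega)] at h4
      omega
    · rw [rn_of_mem ha.1 ha.2, rn_of_not_mem hb] at h
      have := rn_mem (k := k) ha.1 ha.2
      rw [rn_of_mem ha.1 ha.2] at this
      omega
  · by_cases hb : s ≤ b ∧ b < s + l
    · rw [rn_of_not_mem ha, rn_of_mem hb.1 hb.2] at h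
      have := rn_mem (k := k) hb.1 hb.2
      rw [rn_of_mem hb.1 hb.2] at this
      omega
    · rw [rn_of_not_mem ha, rn_of_not_mem hb] at h
      exact h

variable {M : ℕ}

/-- The underlying function of the rotation. -/
def rotFun (M s l k : ℕ) (a : Fin M) : Fin M :=
  if h : s + l ≤ M then ⟨rn s l k a, rn_lt h a.2⟩ else a

lemma rotFun_inj (M s l k : ℕ) : Function.Injective (rotFun M s l k) := by
  intro a b hab
  unfold rotFun at hab
  split_ifs at hab with h
  · have h2 : rn s l k a = rn s l k b := by simpa using hab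
    exact Fin.ext (rn_inj h2)
  · exact hab

/-- Rotation of the block `[s, s + l)` of `Fin M` by `k`, as a permutation (the identity when the
block does not fit). -/
noncomputable def rot (M s l k : ℕ) : Equiv.Perm (Fin M) :=
  Equiv.ofBijective (rotFun M s l k) (Finite.injective_iff_bijective.mp (rotFun_inj M s l k))

lemma rot_apply_val {s l k : ℕ} (h : s + l ≤ M) (a : Fin M) : (rot M s l k a).val = rn s l k a := by
  show (rotFun M s l k a).val = _
  simp [rotFun, h]

lemma rot_zero {s l : ℕ} (h : s + l ≤ M) : rot M s l 0 = 1 := by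
  ext a
  rw [rot_apply_val h, rn_zero]
  simp

lemma rot_add {s l : ℕ} (h : s + l ≤ M) (k k' : ℕ) :
    rot M s l (k + k') = rot M s l k * rot M s l k' := by
  ext a
  rw [Equiv.Perm.mul_apply, rot_apply_val h, rot_apply_val h, rot_apply_val h, rn_add]

lemma rot_self {s l : ℕ} (h : s + l ≤ M) : rot M s l l = 1 := by
  ext a
  rw [rot_apply_val h, rn_self]
  simp

/-- Union bound along a rotation. -/
lemma sens_rot_le {f : (Fin M → Bool) → ℝ} (hf : IsSign f) {s l : ℕ} (h : s + l ≤ M) (k : ℕ) :
    sens f (rot M s l k) ≤ k * sens f (rot M s l 1) := by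
  induction k with
  | zero =>
    rw [rot_zero h]
    unfold sens
    simp [ex_const]
  | succ k ih =>
    rw [rot_add h k 1]
    have := sens_mul_le hf (rot M s l k) (rot M s l 1)
    push_cast
    linarith

/-- Rotation by half of the block is an involution. -/
lemma rot_half_symm {s L : ℕ} (h : s + 2 * L ≤ M) :
    (rot M s (2 * L) L).symm = rot M s (2 * L) L := by
  have h1 : rot M s (2 * L) L * rot M s (2 * L) L = 1 := by
    rw [← rot_add h, ← two_mul, rot_self h]
  refine Equiv.ext fun a => ?_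
  rw [Equiv.symm_apply_eq, ← Equiv.Perm.mul_apply, h1]
  rfl

lemma rn_up {s l k a : ℕ} (h1 : s ≤ a) (h2 : a + k < s + l) : rn s l k a = a + k := by
  rw [rn_of_mem h1 (by omega), Nat.mod_eq_of_lt (by omega)]
  omega

lemma rn_half_high {s L a : ℕ} (h1 : s + L ≤ a) (h2 : a < s + 2 * L) :
    rn s (2 * L) L a = a - L := by
  rw [rn_of_mem (by omega) h2]
  have : a - s + L = (a - s - L) + 2 * L := by omega
  rw [this, Nat.add_mod_right, Nat.mod_eq_of_lt (by omega)]
  omega

end Vale.Agent.Lib.P238
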