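import Vale.Agent.Lib.P238.Bonami
import Vale.Agent.Lib.P238.Rot

/-!
A KKL estimate for a block of coordinates: low influences or rotation sensitivity.
-/

set_option linter.unusedSectionVars false
set_option linter.unusedSimpArgs false
set_option linter.unusedVariables false

namespace Vale.Agent.Lib.P238

open Finset

section general

variable {ι : Type*} [Fintype ι] [DecidableEq ι]

lemma flp_act (π : Equiv.Perm ι) (c : ι) (x : ι → Bool) :
    (flp c x) ∘ π = flp (π.symm c) (x ∘ π) := by
  funext i
  by_cases h : i = π.symm c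
  · subst h
    simp [flp]
  · have h2 : π i ≠ c := by
      intro e
      apply h
      rw [← e]
      simp
    simp [flp, Function.update_of_ne h, Function.update_of_ne h2]

lemma infl_act (h : (ι → Bool) → ℝ) (π : Equiv.Perm ι) (c : ι) :
    infl (fun x => h (x ∘ π)) c = infl h (π.symm c) := by
  unfold infl sflip
  congr 1
  rw [← ex_act π (fun x => (h x - h (flp (π.symm c) x)) ^ 2)]
  refine ex_congr fun x => ?_
  show (h (x ∘ π) - h (flp c x ∘ π)) ^ 2 = _
  rw [flp_act]

lemma sq_tri4 {a a' b b' : ℝ} (ha : a = 1 ∨ a = -1) (ha' : a' = 1 ∨ a' = -1)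
    (hb : b = 1 ∨ b = -1) (hb' : b' = 1 ∨ b' = -1) :
    (a - a') ^ 2 ≤ (b - b') ^ 2 + (a - b) ^ 2 + (a' - b') ^ 2 := by
  rcases ha with rfl | rfl <;> rcases ha' with rfl | rfl <;> rcases hb with rfl | rfl <;>
    rcases hb' with rfl | rfl <;> norm_num

lemma infl_shift {h : (ι → Bool) → ℝ} (hh : IsSign h) (π : Equiv.Perm ι) (c : ι) :
    infl h c ≤ infl h (π.symm c) + sens h π / 2 := by
  rw [← infl_act h π c]
  unfold infl
  have h1 : sflip h c ≤ sflip (fun x => h (x ∘ π)) c + sens h π + sens h π := by
    unfold sflip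
    have h2 : ex (fun x => (h (flp c x) - h (flp c x ∘ π)) ^ 2) = sens h π := by
      unfold sens
      exact ex_flp c (fun x => (h x - h (x ∘ π)) ^ 2)
    have h3 : sens h π = ex (fun x => (h x - h (x ∘ π)) ^ 2) := rfl
    rw [← h2]
    nth_rewrite 1 [h2]
    rw [h3, ← ex_add, ← ex_add]
    refine ex_mono fun x => ?_
    exact sq_tri4 (hh _) (hh _) (hh _) (hh _)
  linarith

/-- The map gluing two points along a set of coordinates. -/
def glue (u : Finset ι) (z y : ι → Bool) : ι → Bool := fun i => if i ∈ u then y i else z i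

lemma glue_glue1 (u : Finset ι) (z y : ι → Bool) : glue u (glue u z y) (glue u y z) = z := by
  funext i
  by_cases h : i ∈ u <;> simp [glue, h]

lemma glue_glue2 (u : Finset ι) (z y : ι → Bool) : glue u (glue u y z) (glue u z y) = y := by
  funext i
  by_cases h : i ∈ u <;> simp [glue, h]

/-- The involution on pairs of points. -/
def glueEquiv (u : Finset ι) : ((ι → Bool) × (ι → Bool)) ≃ ((ι → Bool) × (ι → Bool)) where
  toFun p := (glue u p.1 p.2, glue u p.2 p.1)
  invFun p := (glue u p.1 p.2, glue u p.2 p.1)
  left_inv p := by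
    apply Prod.ext
    · exact glue_glue1 u p.1 p.2
    · exact glue_glue2 u p.1 p.2
  right_inv p := by
    apply Prod.ext
    · exact glue_glue1 u p.1 p.2
    · exact glue_glue2 u p.1 p.2

/-- Averaging over the glued coordinates. -/
noncomputable def avgU (u : Finset ι) (g : (ι → Bool) → ℝ) (z : ι → Bool) : ℝ :=
  ex (fun y => g (glue u z y))

lemma ex_avgU (u : Finset ι) (G : (ι → Bool) → ℝ) : ex (avgU u G) = ex G := by
  unfold avgU ex
  have h1 : ∑ p : (ι → Bool) × (ι → Bool), G (glue u p.1 p.2)
      = ∑ p : (ι → Bool) × (ι → Bool), G p.1 :=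
    Equiv.sum_comp (glueEquiv u) (fun p => G p.1)
  rw [Fintype.sum_prod_type, Fintype.sum_prod_type] at h1
  simp only [Finset.sum_const, Finset.card_univ, Fintype.card_fun, Fintype.card_bool,
    nsmul_eq_mul] at h1
  have hp : (2 : ℝ) ^ Fintype.card ι ≠ 0 := (two_pow_pos (ι := ι)).ne'
  rw [← Finset.sum_div, h1, ← Finset.mul_sum]
  push_cast
  field_simp

lemma chi_glue (S u : Finset ι) (z y : ι → Bool) :
    chi S (glue u z y) = chi (S \ u) z * chi (S ∩ u) y := by
  unfold chi
  have hd : Disjoint (S \ u) (S ∩ u) := by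
    rw [Finset.disjoint_left]
    intro a
    simp
    tauto
  have hS : S = (S \ u) ∪ (S ∩ u) := by
    ext a
    simp
    tauto
  conv_lhs => rw [hS]
  rw [Finset.prod_union hd]
  congr 1
  · refine Finset.prod_congr rfl fun i hi => ?_
    have : i ∉ u := (Finset.mem_sdiff.mp hi).2
    simp [glue, this]
  · refine Finset.prod_congr rfl fun i hi => ?_
    have : i ∈ u := (Finset.mem_inter.mp hi).2
    simp [glue, this]

lemma avgU_chi (S u : Finset ι) (z : ι → Bool) :
    avgU u (chi S) z = if Disjoint S u then chi S z else 0 := by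
  unfold avgU
  simp only [chi_glue]
  rw [ex_mul_left, ex_chi]
  by_cases h : Disjoint S u
  · have h1 : S ∩ u = ∅ := Finset.disjoint_iff_inter_eq_empty.mp h
    have h2 : S \ u = S := Finset.sdiff_eq_self_of_disjoint h
    simp [h, h1, h2]
  · have h1 : S ∩ u ≠ ∅ := fun e => h (Finset.disjoint_iff_inter_eq_empty.mpr e)
    simp [h, h1]

lemma avgU_eq_poly (u : Finset ι) (f : (ι → Bool) → ℝ) (z : ι → Bool) :
    avgU u f z = ∑ S : Finset ι, (if Disjoint S u then fh f S else 0) * chi S z := by
  have h1 : avgU u f z = ∑ S : Finset ι, fh f S * avgU u (chi S) z := by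
    unfold avgU
    have : ∀ y, f (glue u z y) = ∑ S : Finset ι, fh f S * chi S (glue u z y) :=
      fun y => (fourier_inv f _).symm
    rw [ex_congr this, ex_sum]
    refine Finset.sum_congr rfl fun S _ => ?_
    rw [ex_mul_left]
  rw [h1]
  refine Finset.sum_congr rfl fun S _ => ?_
  rw [avgU_chi]
  split_ifs <;> ring

/-- The Fourier weight of the sets meeting `u`. -/
noncomputable def Wb (f : (ι → Bool) → ℝ) (u : Finset ι) : ℝ :=
  ∑ S : Finset ι, if Disjoint S u then 0 else fh f S ^ 2

lemma Wb_eq {f : (ι → Bool) → ℝ} (hf : IsSign f) (u : Finset ι) :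
    Wb f u = ex (fun z => 1 - avgU u f z ^ 2) := by
  rw [ex_sub, ex_const, sum_sq_eq]
  have h1 : ∀ S : Finset ι, fh (avgU u f) S = if Disjoint S u then fh f S else 0 := by
    intro S
    have : avgU u f = fun z => ∑ S : Finset ι, (if Disjoint S u then fh f S else 0) * chi S z :=
      funext (avgU_eq_poly u f)
    rw [this, fh_poly]
  simp only [h1]
  rw [← sum_fh_sq_of_sign hf, ← Finset.sum_sub_distrib]
  unfold Wb
  refine Finset.sum_congr rfl fun S _ => ?_
  split_ifs <;> simp

end general

variable {M : ℕ}

/-- The KKL estimate for a function with all influences in a block. -/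
theorem lemmaA {h : (Fin M → Bool) → ℝ} (hh : IsSign h) {s L d : ℕ} (hfit : s + L ≤ M) (hd : 1 ≤ d)
    (hdL : 2 * d ^ 3 * 9 ^ d ≤ L) (hdep : ∀ c : Fin M, ¬ (s ≤ c.val ∧ c.val < s + L) → infl h c = 0) :
    1 - ex h ^ 2 ≤ 2 / d * totI h + 2 * d ^ 5 * 81 ^ d * sens h (rot M s L 1) := by
  have hdpos : (0 : ℝ) < d := by exact_mod_cast hd
  have h9pos : (0 : ℝ) < 9 ^ d := by positivity
  have hTI0 : 0 ≤ totI h := Finset.sum_nonneg fun c _ => infl_nonneg h c
  have hS0 := sens_nonneg h (rot M s L 1)
  have hterm1 : 0 ≤ 2 / (d : ℝ) * totI h := by positivity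
  have hterm2 : 0 ≤ 2 * (d : ℝ) ^ 5 * 81 ^ d * sens h (rot M s L 1) := by positivity
  by_cases hsmall : ∀ c, (d : ℝ) ^ 2 * 9 ^ d * infl h c ≤ 1
  · have := var_le_of_small_infl hh hd hsmall
    linarith
  · push Not at hsmall
    obtain ⟨c₀, hc₀⟩ := hsmall
    set D : ℝ := (d : ℝ) ^ 2 * 9 ^ d with hD
    have hDpos : 0 < D := by positivity
    have hvar : 1 - ex h ^ 2 ≤ 1 := by nlinarith [sq_nonneg (ex h)]
    set K₀ : ℕ := 2 * d ^ 3 * 9 ^ d with hK₀
    have hK₀pos : (0 : ℝ) < K₀ := by
      rw [hK₀]
      push_cast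
      positivity
    have hKD : (K₀ : ℝ) = 2 * d * D := by
      rw [hK₀, hD]
      push_cast
      ring
    have hinfl₀ : 1 / D < infl h c₀ := by
      rw [div_lt_iff₀ hDpos]
      linarith
    have hc₀pos : infl h c₀ ≠ 0 := by
      have : 0 < 1 / D := by positivity
      linarith
    have hc₀block : s ≤ c₀.val ∧ c₀.val < s + L := by
      by_contra hn
      exact hc₀pos (hdep c₀ hn)
    by_cases hS : sens h (rot M s L 1) * (K₀ * D) ≤ 1
    · -- the rotation is insensitive: many coordinates have large influence
      have hk : ∀ k ∈ Finset.range K₀, 1 / (2 * D) ≤ infl h ((rot M s L k).symm c₀) := by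
        intro k hk
        have hk' : k < K₀ := Finset.mem_range.mp hk
        have h1 := infl_shift hh (rot M s L k) c₀
        have h2 := sens_rot_le hh hfit k
        have h3 : (k : ℝ) ≤ K₀ := by exact_mod_cast hk'.le
        have h4 : sens h (rot M s L 1) * K₀ ≤ 1 / D := by
          rw [le_div_iff₀ hDpos]
          linarith
        have h5 : (k : ℝ) * sens h (rot M s L 1) ≤ 1 / D := by
          calc (k : ℝ) * sens h (rot M s L 1) ≤ K₀ * sens h (rot M s L 1) :=
                mul_le_mul_of_nonneg_right h3 hS0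
            _ = sens h (rot M s L 1) * K₀ := by ring
            _ ≤ _ := h4
        have h6 : 1 / (2 * D) = 1 / D / 2 := by field_simp
        rw [h6]
        linarith
      have hinj : Set.InjOn (fun k => (rot M s L k).symm c₀) (Finset.range K₀ : Set ℕ) := by
        intro k hk k' hk' e
        have hkL : k < L := by
          have := Finset.mem_range.mp hk
          omega
        have hkL' : k' < L := by
          have := Finset.mem_range.mp hk'
          omega
        simp only at e
        set c := (rot M s L k).symm c₀ with hc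
        have e1 : rot M s L k c = c₀ := by simp [hc]
        have e2 : rot M s L k' c = c₀ := by rw [e]; simp
        have v1 := rot_apply_val (k := k) hfit c
        have v2 := rot_apply_val (k := k') hfit c
        rw [e1] at v1
        rw [e2] at v2
        have hcb : s ≤ c.val ∧ c.val < s + L := by
          by_contra hn
          rw [rn_of_not_mem hn] at v1
          rw [← v1] at hn
          exact hn hc₀block
        rw [rn_of_mem hcb.1 hcb.2] at v1 v2
        have h7 : (c.val - s + k) % L = (c.val - s + k') % L := by omega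
        have h8 : k ≡ k' [MOD L] := Nat.ModEq.add_left_cancel' _ h7
        have h9 : k % L = k' % L := h8
        rwa [Nat.mod_eq_of_lt hkL, Nat.mod_eq_of_lt hkL'] at h9
      have hTI : (d : ℝ) ≤ totI h := by
        calc (d : ℝ) = K₀ * (1 / (2 * D)) := by
              rw [hKD]
              field_simp
          _ = ∑ k ∈ Finset.range K₀, (1 / (2 * D)) := by
              rw [Finset.sum_const, Finset.card_range, nsmul_eq_mul]
          _ ≤ ∑ k ∈ Finset.range K₀, infl h ((rot M s L k).symm c₀) := Finset.sum_le_sum hk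
          _ = ∑ c ∈ (Finset.range K₀).image (fun k => (rot M s L k).symm c₀), infl h c := by
              rw [Finset.sum_image hinj]
          _ ≤ ∑ c : Fin M, infl h c :=
              Finset.sum_le_univ_sum_of_nonneg (fun c => infl_nonneg h c)
          _ = totI h := rfl
      have : 1 ≤ 2 / (d : ℝ) * totI h := by
        have h1 : 1 ≤ totI h / d := by
          rw [le_div_iff₀ hdpos]
          linarith
        have h2 : 2 / (d : ℝ) * totI h = 2 * (totI h / d) := by ring
        rw [h2]
        linarith
      linarith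
    · push Not at hS
      have : 1 ≤ 2 * (d : ℝ) ^ 5 * 81 ^ d * sens h (rot M s L 1) := by
        have e : (K₀ : ℝ) * D = 2 * (d : ℝ) ^ 5 * 81 ^ d := by
          rw [hKD, hD]
          have h81 : (81 : ℝ) ^ d = 9 ^ d * 9 ^ d := by
            rw [← mul_pow]
            norm_num
          rw [h81]
          ring
        rw [← e]
        linarith
      linarith

/-- The block of coordinates as a finset. -/
def blockF (M s L : ℕ) : Finset (Fin M) := Finset.univ.filter (fun a => s ≤ a.val ∧ a.val < s + L)

lemma mem_blockF {s L : ℕ} {a : Fin M} : a ∈ blockF M s L ↔ s ≤ a.val ∧ a.val < s + L := by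
  simp [blockF]

lemma glue_flp_not_mem {u : Finset (Fin M)} {c : Fin M} (hc : c ∉ u) (z y : Fin M → Bool) :
    glue u z (flp c y) = glue u z y := by
  funext i
  by_cases hi : i ∈ u
  · have : i ≠ c := fun e => hc (e ▸ hi)
    simp [glue, hi, flp, Function.update_of_ne this]
  · simp [glue, hi]

lemma glue_flp_mem {u : Finset (Fin M)} {c : Fin M} (hc : c ∈ u) (z y : Fin M → Bool) :
    glue u z (flp c y) = flp c (glue u z y) := by
  funext i
  by_cases hi : i = c
  · subst hi
    simp [glue, hc, flp]
  · by_cases hu : i ∈ u <;> simp [glue, hu, flp, Function.update_of_ne hi]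

lemma glue_rot {s L k : ℕ} (hfit : s + L ≤ M) (z y : Fin M → Bool) :
    glue (blockF M s L) z (y ∘ rot M s L k) = (glue (blockF M s L) z y) ∘ rot M s L k := by
  funext i
  simp only [Function.comp, glue, mem_blockF]
  by_cases hi : s ≤ i.val ∧ i.val < s + L
  · have h1 := rot_apply_val (k := k) hfit i
    have h2 := rn_mem (k := k) hi.1 hi.2
    rw [← h1] at h2
    simp [hi, h2]
  · have h1 := rot_apply_val (k := k) hfit i
    rw [rn_of_not_mem hi] at h1
    have h2 : rot M s L k i = i := Fin.ext h1
    simp [hi, h2]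

/-- The block KKL estimate. -/
theorem block_kkl {f : (Fin M → Bool) → ℝ} (hf : IsSign f) {s L d : ℕ} (hfit : s + L ≤ M) (hd : 1 ≤ d)
    (hdL : 2 * d ^ 3 * 9 ^ d ≤ L) :
    Wb f (blockF M s L) ≤ 2 / d * (∑ c ∈ blockF M s L, infl f c)
      + 2 * d ^ 5 * 81 ^ d * sens f (rot M s L 1) := by
  set u := blockF M s L with hu
  have hfib : ∀ z : Fin M → Bool, IsSign (fun y => f (glue u z y)) := fun z y => hf _
  have hA : ∀ z : Fin M → Bool, 1 - avgU u f z ^ 2
      ≤ 2 / d * totI (fun y => f (glue u z y))
        + 2 * d ^ 5 * 81 ^ d * sens (fun y => f (glue u z y)) (rot M s L 1) := by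
    intro z
    apply lemmaA (hfib z) hfit hd hdL
    intro c hc
    have hcu : c ∉ u := by
      rw [hu, mem_blockF]
      exact hc
    unfold infl sflip
    have : ∀ y, (f (glue u z y) - f (glue u z (flp c y))) ^ 2 = 0 := by
      intro y
      rw [glue_flp_not_mem hcu]
      simp
    rw [ex_congr this, ex_const]
    simp
  have hTI : ex (fun z => totI (fun y => f (glue u z y))) = ∑ c ∈ u, infl f c := by
    unfold totI
    rw [ex_sum, ← Finset.sum_subset (Finset.subset_univ u)]
    · refine Finset.sum_congr rfl fun c hc => ?_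
      unfold infl sflip
      have h1 : ∀ z, ex (fun y => (f (glue u z y) - f (glue u z (flp c y))) ^ 2) / 4
          = avgU u (fun x => (f x - f (flp c x)) ^ 2 / 4) z := by
        intro z
        unfold avgU
        rw [div_eq_mul_one_div, ← ex_mul_right]
        refine ex_congr fun y => ?_
        rw [glue_flp_mem hc]
        ring
      rw [ex_congr h1, ex_avgU, div_eq_mul_one_div, ← ex_mul_right]
      refine ex_congr fun x => ?_
      ring
    · intro c _ hc
      have : ∀ z : Fin M → Bool, infl (fun y => f (glue u z y)) c = 0 := by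
        intro z
        unfold infl sflip
        have : ∀ y, (f (glue u z y) - f (glue u z (flp c y))) ^ 2 = 0 := by
          intro y
          rw [glue_flp_not_mem hc]
          simp
        rw [ex_congr this, ex_const]
        simp
      rw [ex_congr this, ex_const]
  have hSn : ex (fun z => sens (fun y => f (glue u z y)) (rot M s L 1)) = sens f (rot M s L 1) := by
    have h1 : ∀ z, sens (fun y => f (glue u z y)) (rot M s L 1)
        = avgU u (fun x => (f x - f (x ∘ rot M s L 1)) ^ 2) z := by
      intro z
      unfold sens avgU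
      refine ex_congr fun y => ?_
      show (f (glue u z y) - f (glue u z (y ∘ rot M s L 1))) ^ 2
        = (f (glue u z y) - f (glue u z y ∘ rot M s L 1)) ^ 2
      rw [hu, glue_rot hfit]
    rw [ex_congr h1, ex_avgU]
    rfl
  rw [Wb_eq hf]
  calc ex (fun z => 1 - avgU u f z ^ 2)
      ≤ ex (fun z => 2 / (d : ℝ) * totI (fun y => f (glue u z y))
        + 2 * d ^ 5 * 81 ^ d * sens (fun y => f (glue u z y)) (rot M s L 1)) := ex_mono hA
    _ = _ := by
      rw [ex_add, ex_mul_left, ex_mul_left, hTI, hSn]

end Vale.Agent.Lib.P238
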