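import Vale.Agent.Lib.P238.Ball
import Vale.Agent.Lib.P238.LocalKKL

/-!
Swapping two adjacent blocks moves a random word far in edit distance.
-/

set_option linter.unusedSectionVars false
set_option linter.unusedSimpArgs false
set_option linter.unusedVariables false

namespace Vale.Agent.Lib.P238

open Finset

lemma chi_comp_emb {m M : ℕ} (emb : Fin m ↪ Fin M) (T : Finset (Fin m)) (y : Fin M → Bool) :
    chi T (y ∘ emb) = chi (T.map emb) y := by
  unfold chi
  rw [Finset.prod_map]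
  rfl

lemma ex_comp_emb {m M : ℕ} (emb : Fin m ↪ Fin M) (G : (Fin m → Bool) → ℝ) :
    ex (fun y : Fin M → Bool => G (y ∘ emb)) = ex G := by
  have h1 : ∀ y : Fin M → Bool, G (y ∘ emb)
      = ∑ T : Finset (Fin m), fh G T * chi (T.map emb) y := by
    intro y
    rw [← fourier_inv G (y ∘ emb)]
    simp only [chi_comp_emb]
  rw [ex_congr h1, ex_sum]
  simp only [ex_mul_left, ex_chi, Finset.map_eq_empty]
  rw [Finset.sum_eq_single ∅]
  · simp only [if_true, mul_one]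
    unfold fh
    refine ex_congr fun x => ?_
    simp [chi]
  · intro T _ hT
    simp [hT]
  · simp

section far

variable {M s L K e : ℕ}

/-- The embedding of a block into the coordinates. -/
def embB (M s K : ℕ) (h : s + K ≤ M) : Fin K ↪ Fin M :=
  ⟨fun k => ⟨s + k.val, by have := k.2; omega⟩, by
    intro a b hab
    apply Fin.ext
    simpa using hab⟩

/-- The first letters of the swapped word. -/
noncomputable def prefixW (M s L : ℕ) (h : s + L ≤ M) (x : Fin M → Bool) : List Bool :=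
  List.ofFn (fun k : Fin (s + L) => x (rot M s (2 * L) L ⟨k.val, by have := k.2; omega⟩))

lemma ofFn_split {N : ℕ} (g : Fin N → Bool) (s K : ℕ) (h : s + K ≤ N) :
    List.ofFn g = (List.ofFn g).take s
      ++ (List.ofFn (g ∘ embB N s K h) ++ (List.ofFn g).drop (s + K)) := by
  have h1 : List.ofFn (g ∘ embB N s K h) = ((List.ofFn g).drop s).take K := by
    apply List.ext_getElem
    · simp
      omega
    · intro i h1 h2
      simp [embB]
      rfl
  rw [h1, ← List.drop_drop, List.take_append_drop, List.take_append_drop]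

lemma ofFn_prefix (h : s + L ≤ M) (x : Fin M → Bool) :
    List.ofFn (x ∘ rot M s (2 * L) L)
      = prefixW M s L h x ++ (List.ofFn (x ∘ rot M s (2 * L) L)).drop (s + L) := by
  have h1 : prefixW M s L h x = (List.ofFn (x ∘ rot M s (2 * L) L)).take (s + L) := by
    apply List.ext_getElem
    · simp [prefixW]
      omega
    · intro i h1 h2
      simp [prefixW]
  rw [h1, List.take_append_drop]

/-- The deterministic covering: a close pair gives a close window. -/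
lemma bad_cover (h2 : s + 2 * L ≤ M) (hK : K + 2 * e ≤ L) (Z : List Bool) (x : Fin M → Bool)
    (h : ed (List.ofFn x ++ Z) (List.ofFn (x ∘ rot M s (2 * L) L) ++ Z) ≤ e) :
    ∃ p₀ ∈ Finset.Icc (s - e) (s + e), ∃ p₁ ∈ Finset.Icc (K - e) (K + e),
      ed (List.ofFn (x ∘ embB M s K (by omega)))
        (((prefixW M s L (by omega) x).drop p₀).take p₁) ≤ e := by
  have hs : s + K ≤ M := by omega
  have hsL : s + L ≤ M := by omega
  set x₁ := (List.ofFn x).take s with hx₁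
  set x₂ := List.ofFn (x ∘ embB M s K hs) with hx₂
  set x₃ := (List.ofFn x).drop (s + K) ++ Z with hx₃
  have hX : List.ofFn x ++ Z = x₁ ++ (x₂ ++ x₃) := by
    have := ofFn_split x s K hs
    rw [hx₁, hx₂, hx₃]
    nth_rewrite 1 [this]
    simp
  set Y := List.ofFn (x ∘ rot M s (2 * L) L) ++ Z with hY
  obtain ⟨y₀, y', eY, h1⟩ := ed_split x₁ (x₂ ++ x₃) Y
  obtain ⟨y₁, y₂, ey, h3⟩ := ed_split x₂ x₃ y'
  rw [← hX] at h1
  have l1 : x₁.length = s := by
    rw [hx₁, List.length_take, List.length_ofFn]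
    omega
  have l2 : x₂.length = K := by rw [hx₂, List.length_ofFn]
  have a1 := ed_len_left x₁ y₀
  have a2 := ed_len_right x₁ y₀
  have a3 := ed_len_left x₂ y₁
  have a4 := ed_len_right x₂ y₁
  rw [l1] at a1 a2
  rw [l2] at a3 a4
  have hpl : y₀.length + y₁.length ≤ s + L := by omega
  refine ⟨y₀.length, Finset.mem_Icc.mpr ⟨by omega, by omega⟩, y₁.length,
    Finset.mem_Icc.mpr ⟨by omega, by omega⟩, ?_⟩
  have hw : ((prefixW M s L hsL x).drop y₀.length).take y₁.length = y₁ := by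
    have e1 : Y = prefixW M s L hsL x
        ++ ((List.ofFn (x ∘ rot M s (2 * L) L)).drop (s + L) ++ Z) := by
      rw [hY]
      nth_rewrite 1 [ofFn_prefix hsL x]
      simp
    have lp : (prefixW M s L hsL x).length = s + L := by simp [prefixW]
    have e2 : (Y.drop y₀.length).take y₁.length = y₁ := by
      rw [eY, ey]
      simp
    rw [e1, List.drop_append_of_le_length (by omega),
      List.take_append_of_le_length (by rw [List.length_drop]; omega)] at e2
    exact e2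
  rw [hw]
  omega

lemma prefix_glue (h : s + L ≤ M) (hK : K ≤ L) (hs : s + 2 * L ≤ M) (z y : Fin M → Bool) :
    prefixW M s L h (glue (blockF M s K) z y) = prefixW M s L h z := by
  unfold prefixW
  congr 1
  funext k
  unfold glue
  rw [if_neg]
  rw [mem_blockF]
  have hk := k.2
  rw [rot_apply_val (by omega)]
  rintro ⟨h1, h3⟩
  simp only at h1 h3
  by_cases h4 : s ≤ k.val
  · rw [rn_up h4 (by omega)] at h3
    omega
  · rw [rn_of_not_mem (by omega)] at h1
    omega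

lemma block_glue (h : s + K ≤ M) (z y : Fin M → Bool) :
    glue (blockF M s K) z y ∘ embB M s K h = y ∘ embB M s K h := by
  funext k
  simp only [Function.comp, glue]
  rw [if_pos]
  rw [mem_blockF]
  have := k.2
  show s ≤ s + k.val ∧ s + k.val < s + K
  omega

/-- A fixed window: the probability that the block lands close to it. -/
lemma event_le (h2 : s + 2 * L ≤ M) (hK : K ≤ L) (p₀ p₁ e : ℕ) :
    ex (fun x : Fin M → Bool =>
      if ed (List.ofFn (x ∘ embB M s K (by omega)))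
        (((prefixW M s L (by omega) x).drop p₀).take p₁) ≤ e then (1 : ℝ) else 0)
      ≤ (3 / 2) ^ p₁ * 10 ^ e / 2 ^ K := by
  have hs : s + K ≤ M := by omega
  have hsL : s + L ≤ M := by omega
  rw [← ex_avgU (blockF M s K)]
  have hz : ∀ z : Fin M → Bool, avgU (blockF M s K) (fun x : Fin M → Bool =>
      if ed (List.ofFn (x ∘ embB M s K hs))
        (((prefixW M s L hsL x).drop p₀).take p₁) ≤ e then (1 : ℝ) else 0) z
        ≤ (3 / 2) ^ p₁ * 10 ^ e / 2 ^ K := by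
    intro z
    unfold avgU
    set w := ((prefixW M s L hsL z).drop p₀).take p₁ with hw
    have h1 : ∀ y : Fin M → Bool,
        (if ed (List.ofFn (glue (blockF M s K) z y ∘ embB M s K hs))
          (((prefixW M s L hsL (glue (blockF M s K) z y)).drop p₀).take p₁) ≤ e then (1 : ℝ) else 0)
        = (fun l : Fin K → Bool => if ed (List.ofFn l) w ≤ e then (1 : ℝ) else 0)
            (y ∘ embB M s K hs) := by
      intro y
      rw [block_glue hs, prefix_glue hsL hK h2]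
    have h3 : ex (fun l : Fin K → Bool => if ed (List.ofFn l) w ≤ e then (1 : ℝ) else 0)
        = (ballC K w e : ℝ) / 2 ^ K := by
      unfold ex ballC
      rw [Finset.sum_boole]
      simp
    have h8 := (ex_congr h1).trans ((ex_comp_emb (embB M s K hs) _).trans h3)
    rw [h8]
    have h4 := ballC_le K w e
    have h5 : w.length ≤ p₁ := by
      rw [hw]
      exact List.length_take_le _ _
    have h6 : ((3 / 2 : ℝ)) ^ w.length ≤ (3 / 2) ^ p₁ := pow_le_pow_right₀ (by norm_num) h5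
    have h7 : (3 / 2 : ℝ) ^ w.length * 10 ^ e ≤ (3 / 2) ^ p₁ * 10 ^ e :=
      mul_le_mul_of_nonneg_right h6 (by positivity)
    exact div_le_div_of_nonneg_right (h4.trans h7) (by positivity)
  calc _ ≤ ex (fun _ : Fin M → Bool => (3 / 2 : ℝ) ^ p₁ * 10 ^ e / 2 ^ K) := ex_mono hz
    _ = _ := ex_const _

lemma sq_le_16_pow (e : ℕ) : ((2 : ℝ) * e + 1) ^ 2 ≤ 16 ^ e := by
  induction e with
  | zero => norm_num
  | succ e ih =>
    have he : (0 : ℝ) ≤ e := Nat.cast_nonneg e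
    have h1 : ((2 : ℝ) * ((e + 1 : ℕ) : ℝ) + 1) ^ 2 ≤ 16 * (2 * e + 1) ^ 2 := by
      push_cast
      nlinarith
    calc _ ≤ 16 * ((2 : ℝ) * e + 1) ^ 2 := h1
      _ ≤ 16 * 16 ^ e := by linarith
      _ = 16 ^ (e + 1) := by ring

lemma numeric_far {e : ℕ} (he : 1 ≤ e) :
    ((2 : ℝ) * e + 1) ^ 2 * ((3 / 2) ^ (125 * e + e) * 10 ^ e / 2 ^ (125 * e)) ≤ 1 / 2 := by
  have h1 := sq_le_16_pow e
  have h2 : (3 / 2 : ℝ) ^ (125 * e + e) = ((3 / 2) ^ 126) ^ e := by
    rw [← pow_mul]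
    congr 1
    ring
  have h3 : (2 : ℝ) ^ (125 * e) = (2 ^ 125) ^ e := by
    rw [← pow_mul]
  rw [h2, h3]
  have h4 : ((2 : ℝ) * e + 1) ^ 2 * (((3 / 2) ^ 126) ^ e * 10 ^ e / (2 ^ 125) ^ e)
      ≤ 16 ^ e * (((3 / 2) ^ 126) ^ e * 10 ^ e / (2 ^ 125) ^ e) :=
    mul_le_mul_of_nonneg_right h1 (by positivity)
  refine h4.trans ?_
  have h5 : (16 : ℝ) ^ e * ((((3 / 2 : ℝ) ^ 126)) ^ e * 10 ^ e / (2 ^ 125) ^ e)
      = (16 * (3 / 2) ^ 126 * 10 / 2 ^ 125) ^ e := by
    have h8 : (16 * (3 / 2 : ℝ) ^ 126 * 10 / 2 ^ 125) ^ e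
        = (16 : ℝ) ^ e * ((3 / 2 : ℝ) ^ 126) ^ e * 10 ^ e / (2 ^ 125) ^ e := by
      rw [div_pow, mul_pow, mul_pow]
    rw [h8]
    ring
  rw [h5]
  have h6 : (16 * (3 / 2 : ℝ) ^ 126 * 10 / 2 ^ 125) ≤ 1 / 2 := by norm_num
  have h7 : (0 : ℝ) ≤ (16 * (3 / 2 : ℝ) ^ 126 * 10 / 2 ^ 125) := by positivity
  calc (16 * (3 / 2 : ℝ) ^ 126 * 10 / 2 ^ 125) ^ e
      ≤ (16 * (3 / 2 : ℝ) ^ 126 * 10 / 2 ^ 125) ^ 1 := pow_le_pow_of_le_one h7 (by linarith) he
    _ ≤ 1 / 2 := by simpa using h6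

/-- The expected distance of a swap is large. -/
theorem far_bound (h2 : s + 2 * L ≤ M) (hL : 128 ≤ L) (Z : List Bool) :
    (L : ℝ) / 256 ≤ ex (fun x : Fin M → Bool =>
      (ed (List.ofFn x ++ Z) (List.ofFn (x ∘ rot M s (2 * L) L) ++ Z) : ℝ)) := by
  set e := L / 128 with he
  have he1 : 1 ≤ e := by
    rw [he]
    exact (Nat.one_le_div_iff (by norm_num)).mpr hL
  have heL : 128 * e ≤ L := Nat.mul_div_le L 128
  have heL2 : L < 128 * e + 128 := by
    rw [he]
    have := Nat.lt_mul_div_succ L (by norm_num : 0 < 128)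
    omega
  set K := 125 * e with hKdef
  have hK : K + 2 * e ≤ L := by omega
  have hKL : K ≤ L := by omega
  have hs : s + K ≤ M := by omega
  have hsL : s + L ≤ M := by omega
  set G : ℕ → ℕ → (Fin M → Bool) → ℝ := fun p₀ p₁ x =>
    if ed (List.ofFn (x ∘ embB M s K hs))
      (((prefixW M s L hsL x).drop p₀).take p₁) ≤ e then (1 : ℝ) else 0 with hG
  set I := Finset.Icc (s - e) (s + e) with hI
  set J := Finset.Icc (K - e) (K + e) with hJ
  set bad : (Fin M → Bool) → ℝ := fun x =>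
    if ed (List.ofFn x ++ Z) (List.ofFn (x ∘ rot M s (2 * L) L) ++ Z) ≤ e then (1 : ℝ) else 0 with hbad
  have hGnn : ∀ p₀ p₁ x, 0 ≤ G p₀ p₁ x := by
    intro p₀ p₁ x
    simp only [hG]
    split_ifs <;> norm_num
  have hcov : ∀ x, bad x ≤ ∑ p₀ ∈ I, ∑ p₁ ∈ J, G p₀ p₁ x := by
    intro x
    simp only [hbad]
    split_ifs with h
    · obtain ⟨p₀, hp₀, p₁, hp₁, h3⟩ := bad_cover h2 hK Z x h
      have h4 : G p₀ p₁ x = 1 := by
        simp only [hG]
        rw [if_pos h3]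
      calc (1 : ℝ) = G p₀ p₁ x := h4.symm
        _ ≤ ∑ p₁ ∈ J, G p₀ p₁ x :=
          Finset.single_le_sum (f := fun q => G p₀ q x) (fun q _ => hGnn _ _ _) hp₁
        _ ≤ ∑ p₀ ∈ I, ∑ p₁ ∈ J, G p₀ p₁ x :=
          Finset.single_le_sum (f := fun q => ∑ p₁ ∈ J, G q p₁ x)
            (fun q _ => Finset.sum_nonneg fun _ _ => hGnn _ _ _) hp₀
    · exact Finset.sum_nonneg fun _ _ => Finset.sum_nonneg fun _ _ => hGnn _ _ _
  have hC : (0 : ℝ) ≤ (3 / 2) ^ (K + e) * 10 ^ e / 2 ^ K := by positivity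
  have hev : ∀ p₀ ∈ I, ∀ p₁ ∈ J, ex (G p₀ p₁) ≤ (3 / 2) ^ (K + e) * 10 ^ e / 2 ^ K := by
    intro p₀ _ p₁ hp₁
    have h3 := event_le h2 hKL p₀ p₁ e
    have h4 : p₁ ≤ K + e := (Finset.mem_Icc.mp hp₁).2
    have h5 : (3 / 2 : ℝ) ^ p₁ ≤ (3 / 2) ^ (K + e) := pow_le_pow_right₀ (by norm_num) h4
    have h6 : (3 / 2 : ℝ) ^ p₁ * 10 ^ e / 2 ^ K ≤ (3 / 2) ^ (K + e) * 10 ^ e / 2 ^ K :=
      div_le_div_of_nonneg_right (mul_le_mul_of_nonneg_right h5 (by positivity)) (by positivity)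
    exact h3.trans h6
  have hcI : (I.card : ℝ) ≤ 2 * e + 1 := by
    have : I.card ≤ 2 * e + 1 := by
      rw [hI, Nat.card_Icc]
      omega
    exact_mod_cast this
  have hcJ : (J.card : ℝ) ≤ 2 * e + 1 := by
    have : J.card ≤ 2 * e + 1 := by
      rw [hJ, Nat.card_Icc]
      omega
    exact_mod_cast this
  have hexbad : ex bad ≤ 1 / 2 := by
    calc ex bad ≤ ex (fun x => ∑ p₀ ∈ I, ∑ p₁ ∈ J, G p₀ p₁ x) := ex_mono hcov
      _ = ∑ p₀ ∈ I, ∑ p₁ ∈ J, ex (G p₀ p₁) := by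
        rw [ex_sum]
        refine Finset.sum_congr rfl fun p₀ _ => ?_
        rw [ex_sum]
      _ ≤ ∑ p₀ ∈ I, ∑ p₁ ∈ J, ((3 / 2 : ℝ) ^ (K + e) * 10 ^ e / 2 ^ K) :=
        Finset.sum_le_sum fun p₀ h₀ => Finset.sum_le_sum fun p₁ h₁ => hev p₀ h₀ p₁ h₁
      _ = (I.card : ℝ) * (J.card * ((3 / 2 : ℝ) ^ (K + e) * 10 ^ e / 2 ^ K)) := by
        simp [Finset.sum_const]
      _ ≤ (2 * e + 1) * ((2 * e + 1) * ((3 / 2 : ℝ) ^ (K + e) * 10 ^ e / 2 ^ K)) := by
        have h0 : (0 : ℝ) ≤ 2 * e + 1 := by positivity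
        have h1 : (J.card : ℝ) * ((3 / 2 : ℝ) ^ (K + e) * 10 ^ e / 2 ^ K)
            ≤ (2 * e + 1) * ((3 / 2 : ℝ) ^ (K + e) * 10 ^ e / 2 ^ K) :=
          mul_le_mul_of_nonneg_right hcJ hC
        exact mul_le_mul hcI h1 (by positivity) h0
      _ = ((2 : ℝ) * e + 1) ^ 2 * ((3 / 2) ^ (125 * e + e) * 10 ^ e / 2 ^ (125 * e)) := by
        rw [hKdef]
        ring
      _ ≤ 1 / 2 := numeric_far he1
  have hpt : ∀ x : Fin M → Bool, ((e : ℝ) + 1) * (1 - bad x)
      ≤ (ed (List.ofFn x ++ Z) (List.ofFn (x ∘ rot M s (2 * L) L) ++ Z) : ℝ) := by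
    intro x
    simp only [hbad]
    split_ifs with h
    · simp
    · push Not at h
      have : ((e + 1 : ℕ) : ℝ) ≤
          (ed (List.ofFn x ++ Z) (List.ofFn (x ∘ rot M s (2 * L) L) ++ Z) : ℝ) := by
        exact_mod_cast h
      push_cast at this
      linarith
  have h3 := ex_mono hpt
  rw [ex_mul_left, ex_sub, ex_const] at h3
  have h4 : (0 : ℝ) ≤ (e : ℝ) + 1 := by positivity
  have h5 : ((e : ℝ) + 1) * (1 / 2) ≤ ((e : ℝ) + 1) * (1 - ex bad) :=
    mul_le_mul_of_nonneg_left (by linarith) h4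
  have h6 : (L : ℝ) ≤ 128 * e + 128 := by exact_mod_cast heL2.le
  linarith

end far

end Vale.Agent.Lib.P238
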