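import Vale.Agent.Lib.P238.Block
import Vale.Agent.Lib.P238.LocalKKL

/-!
Summing the parent estimate over all parents and all levels.
-/

set_option linter.unusedSectionVars false
set_option linter.unusedSimpArgs false
set_option linter.unusedVariables false

namespace Vale.Agent.Lib.P238

open Finset
open scoped Classical

variable {M : ℕ}

/-- One level of the hierarchy. -/
theorem level_sum {L R' K : ℕ} (hL : 0 < L) (hR : 0 < R') (hM : M = K * (2 * L * R'))
    {f : (Fin M → Bool) → ℝ} (hf : IsSign f) :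
    ∑ p ∈ Finset.range K, ∑ v ∈ Finset.range R', sens f (nodeT M L (p * R' + v))
      ≤ 8 * (∑ S : Finset (Fin M), fh f S ^ 2 * hcount L S)
        - 8 * (∑ S : Finset (Fin M), fh f S ^ 2 * hcount (2 * L * R') S)
        + ∑ p ∈ Finset.range K, 2 * (L : ℝ) * sens f (parU M L R' p 1) := by
  have h1 : ∀ p ∈ Finset.range K, ∑ v ∈ Finset.range R', sens f (nodeT M L (p * R' + v))
      ≤ 8 * ∑ S : Finset (Fin M), (fh f S ^ 2 * (((hits L R' S p).card - 1 : ℕ) : ℝ))
        + 2 * (L : ℝ) * sens f (parU M L R' p 1) := by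
    intro p hp
    have hp' := Finset.mem_range.mp hp
    have h2 := star hL hR hM hp' f
    have h3 : sens f (parU M L R' p L) ≤ L * sens f (parU M L R' p 1) :=
      sens_rot_le hf (par_fit hM hp') L
    nlinarith
  refine (Finset.sum_le_sum h1).trans ?_
  rw [Finset.sum_add_distrib, ← Finset.mul_sum, Finset.sum_comm]
  have h4 : ∑ S : Finset (Fin M), ∑ p ∈ Finset.range K,
        (fh f S ^ 2 * (((hits L R' S p).card - 1 : ℕ) : ℝ))
      = (∑ S : Finset (Fin M), fh f S ^ 2 * hcount L S)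
        - ∑ S : Finset (Fin M), fh f S ^ 2 * hcount (2 * L * R') S := by
    rw [← Finset.sum_sub_distrib]
    refine Finset.sum_congr rfl fun S _ => ?_
    rw [← Finset.mul_sum, sum_excess hL hR hM S]
    ring
  rw [h4]
  linarith

/-- The blocks of a partition of the interval. -/
lemma blockF_eq {L K : ℕ} (hL : 0 < L) (u : ℕ) :
    blockF M (u * L) L = Finset.univ.filter (fun a : Fin M => a.val / L = u) := by
  ext a
  rw [mem_blockF, Finset.mem_filter]
  simp only [Finset.mem_univ, true_and]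
  constructor
  · rintro ⟨h1, h2⟩
    exact div_of_mem hL h1 h2
  · intro h
    exact mem_of_div hL h

lemma sum_hcount_eq {L K : ℕ} (hL : 0 < L) (hM : M = K * L) (f : (Fin M → Bool) → ℝ) :
    ∑ S : Finset (Fin M), fh f S ^ 2 * hcount L S
      = ∑ u ∈ Finset.range K, Wb f (blockF M (u * L) L) := by
  unfold Wb
  rw [Finset.sum_comm]
  refine Finset.sum_congr rfl fun S _ => ?_
  have h1 : (hcount L S : ℝ) = ∑ u ∈ Finset.range K, (if Disjoint S (blockF M (u * L) L) then 0 else 1) := by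
    unfold hcount
    have h2 : S.image (fun a => a.val / L)
        = (Finset.range K).filter (fun u => ¬ Disjoint S (blockF M (u * L) L)) := by
      ext u
      simp only [Finset.mem_image, Finset.mem_filter, Finset.mem_range]
      constructor
      · rintro ⟨a, ha, rfl⟩
        constructor
        · rw [Nat.div_lt_iff_lt_mul hL, ← hM]
          exact a.2
        · rw [Finset.not_disjoint_iff]
          refine ⟨a, ha, ?_⟩
          rw [blockF_eq (K := K) hL, Finset.mem_filter]
          simp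
      · rintro ⟨_, h3⟩
        rw [Finset.not_disjoint_iff] at h3
        obtain ⟨a, ha, hb⟩ := h3
        rw [blockF_eq (K := K) hL, Finset.mem_filter] at hb
        exact ⟨a, ha, hb.2⟩
    rw [h2, Finset.card_filter, Nat.cast_sum]
    refine Finset.sum_congr rfl fun u _ => ?_
    by_cases h : Disjoint S (blockF M (u * L) L) <;> simp [h]
  rw [h1, Finset.mul_sum]
  refine Finset.sum_congr rfl fun u _ => ?_
  by_cases h : Disjoint S (blockF M (u * L) L) <;> simp [h]

lemma sum_blocks {L K : ℕ} (hL : 0 < L) (hM : M = K * L) (g : Fin M → ℝ) :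
    ∑ u ∈ Finset.range K, ∑ c ∈ blockF M (u * L) L, g c = ∑ c : Fin M, g c := by
  have h1 : ∀ a ∈ (Finset.univ : Finset (Fin M)), a.val / L ∈ Finset.range K := by
    intro a _
    rw [Finset.mem_range, Nat.div_lt_iff_lt_mul hL, ← hM]
    exact a.2
  rw [← Finset.sum_fiberwise_of_maps_to h1]
  refine Finset.sum_congr rfl fun u _ => ?_
  rw [blockF_eq (K := K) hL]

/-- Scales of the hierarchy. -/
def lev (L₀ R' i : ℕ) : ℕ := L₀ * (2 * R') ^ i

lemma lev_succ (L₀ R' i : ℕ) : lev L₀ R' (i + 1) = 2 * lev L₀ R' i * R' := by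
  unfold lev
  ring

lemma lev_pos {L₀ R' : ℕ} (hL : 0 < L₀) (hR : 0 < R') (i : ℕ) : 0 < lev L₀ R' i := by
  unfold lev
  positivity

lemma M_eq {L₀ R' t i : ℕ} (hM : M = L₀ * (2 * R') ^ t) (hi : i < t) :
    M = (2 * R') ^ (t - 1 - i) * (2 * lev L₀ R' i * R') := by
  rw [← lev_succ, hM]
  unfold lev
  have : t = (t - 1 - i) + (i + 1) := by omega
  nth_rewrite 1 [this]
  rw [pow_add]
  ring

/-- The main inequality for a sign function. -/
theorem sign_ineq {L₀ R' t d : ℕ} (hL : 0 < L₀) (hR : 0 < R') (hM : M = L₀ * (2 * R') ^ t)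
    (hd : 1 ≤ d) (hdL : 2 * d ^ 3 * 9 ^ d ≤ L₀) {f : (Fin M → Bool) → ℝ} (hf : IsSign f) :
    ∑ i ∈ Finset.range t, ∑ p ∈ Finset.range ((2 * R') ^ (t - 1 - i)), ∑ v ∈ Finset.range R',
        sens f (nodeT M (lev L₀ R' i) (p * R' + v))
      ≤ 4 / d * ∑ c : Fin M, sflip f c
        + 16 * d ^ 5 * 81 ^ d * ∑ u ∈ Finset.range ((2 * R') ^ t), sens f (rot M (u * L₀) L₀ 1)
        + ∑ i ∈ Finset.range t, ∑ p ∈ Finset.range ((2 * R') ^ (t - 1 - i)),
            2 * (lev L₀ R' i : ℝ) * sens f (parU M (lev L₀ R' i) R' p 1) := by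
  set H : ℕ → ℝ := fun i => ∑ S : Finset (Fin M), fh f S ^ 2 * hcount (lev L₀ R' i) S with hH
  have h1 : ∀ i ∈ Finset.range t,
      ∑ p ∈ Finset.range ((2 * R') ^ (t - 1 - i)), ∑ v ∈ Finset.range R',
          sens f (nodeT M (lev L₀ R' i) (p * R' + v))
      ≤ 8 * (H i - H (i + 1)) + ∑ p ∈ Finset.range ((2 * R') ^ (t - 1 - i)),
            2 * (lev L₀ R' i : ℝ) * sens f (parU M (lev L₀ R' i) R' p 1) := by
    intro i hi
    have h2 := level_sum (lev_pos hL hR i) hR (M_eq hM (Finset.mem_range.mp hi)) hf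
    rw [← lev_succ] at h2
    simp only [hH]
    linarith
  refine (Finset.sum_le_sum h1).trans ?_
  rw [Finset.sum_add_distrib, ← Finset.mul_sum, Finset.sum_range_sub']
  have hHt : 0 ≤ H t := by
    simp only [hH]
    exact Finset.sum_nonneg fun S _ => by positivity
  have hM0 : M = (2 * R') ^ t * L₀ := by rw [hM]; ring
  have hH0 : H 0 = ∑ u ∈ Finset.range ((2 * R') ^ t), Wb f (blockF M (u * L₀) L₀) := by
    have := sum_hcount_eq hL hM0 f
    simp only [hH, lev, pow_zero, mul_one]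
    exact this
  have hW : ∀ u ∈ Finset.range ((2 * R') ^ t), Wb f (blockF M (u * L₀) L₀)
      ≤ 2 / d * (∑ c ∈ blockF M (u * L₀) L₀, infl f c)
        + 2 * d ^ 5 * 81 ^ d * sens f (rot M (u * L₀) L₀ 1) := by
    intro u hu
    have hu' := Finset.mem_range.mp hu
    have hfit : u * L₀ + L₀ ≤ M := by
      rw [hM0]
      nlinarith
    exact block_kkl hf hfit hd hdL
  have hsum := Finset.sum_le_sum hW
  rw [Finset.sum_add_distrib, ← Finset.mul_sum, ← Finset.mul_sum, sum_blocks hL hM0, ← hH0] at hsum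
  have hI : ∑ c : Fin M, infl f c = (∑ c : Fin M, sflip f c) / 4 := by
    unfold infl
    rw [Finset.sum_div]
  rw [hI] at hsum
  have e1 : 4 / (d : ℝ) * ∑ c : Fin M, sflip f c
      = 8 * (2 / d * ((∑ c : Fin M, sflip f c) / 4)) := by ring
  have e2 : 16 * (d : ℝ) ^ 5 * 81 ^ d * ∑ u ∈ Finset.range ((2 * R') ^ t), sens f (rot M (u * L₀) L₀ 1)
      = 8 * (2 * d ^ 5 * 81 ^ d * ∑ u ∈ Finset.range ((2 * R') ^ t), sens f (rot M (u * L₀) L₀ 1)) := by ring
  rw [e1, e2]
  linarith

end Vale.Agent.Lib.P238
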