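import Vale.Agent.Lib.P238.Near

/-!
The distortion inequality on the hierarchy.
-/

set_option linter.unusedSectionVars false
set_option linter.unusedSimpArgs false
set_option linter.unusedVariables false

namespace Vale.Agent.Lib.P238

open Finset

theorem main_ineq {n M L₀ R' t d : ℕ} (hMn : M ≤ n) (hL : 128 ≤ L₀) (hR : 0 < R')
    (hM : M = L₀ * (2 * R') ^ t) (hd : 1 ≤ d) (hdL : 8 * d ^ 6 * 81 ^ d ≤ L₀)
    (htd : t * d ≤ 2 * R') (φ : (Fin n → Bool) → lp (fun _ : ℕ => ℝ) 1) (A B : ℝ)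
    (hA : ∀ x y, ‖φ x - φ y‖ ≤ A * (edCube x y : ℝ))
    (hB : ∀ x y, (edCube x y : ℝ) ≤ B * ‖φ x - φ y‖) :
    (t : ℝ) * d / 6144 ≤ A * B := by
  have hL0 : 0 < L₀ := by omega
  have hMpos : 0 < M := by
    rw [hM]
    positivity
  have hnpos : 0 < n := by omega
  -- signs of the constants
  have hAB : 0 ≤ A ∧ 0 < B := by
    set c : Fin n := ⟨0, hnpos⟩
    set x : Fin n → Bool := fun _ => false
    have hne : edCube x (flp c x) ≠ 0 := by
      intro h0
      have h1 := List.ofFn_injective (ed_eq_zero h0)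
      have h2 := congrFun h1 c
      simp [flp, x] at h2
    have h3 : (1 : ℝ) ≤ (edCube x (flp c x) : ℝ) := by
      exact_mod_cast Nat.one_le_iff_ne_zero.mpr hne
    have h4 := hA x (flp c x)
    have h5 := hB x (flp c x)
    have h6 : 0 ≤ ‖φ x - φ (flp c x)‖ := norm_nonneg _
    constructor
    · by_contra h7
      push Not at h7
      nlinarith
    · by_contra h7
      push Not at h7
      nlinarith
  obtain ⟨hA0, hB0⟩ := hAB
  set Z : List Bool := List.replicate (n - M) false with hZ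
  set ψ : (Fin M → Bool) → lp (fun _ : ℕ => ℝ) 1 := fun x => φ (pad hMn x) with hψ
  have hcube : ∀ x y : Fin M → Bool, edCube (pad hMn x) (pad hMn y)
      = ed (List.ofFn x ++ Z) (List.ofFn y ++ Z) := by
    intro x y
    unfold edCube
    rw [ofFn_pad, ofFn_pad]
  have hA' : ∀ x y : Fin M → Bool,
      ‖ψ x - ψ y‖ ≤ A * (ed (List.ofFn x ++ Z) (List.ofFn y ++ Z) : ℝ) := by
    intro x y
    rw [← hcube]
    exact hA _ _
  have hB' : ∀ x y : Fin M → Bool,
      (ed (List.ofFn x ++ Z) (List.ofFn y ++ Z) : ℝ) ≤ B * ‖ψ x - ψ y‖ := by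
    intro x y
    rw [← hcube]
    exact hB _ _
  have near1 : ∀ c : Fin M, ex (fun x => ‖ψ x - ψ (flp c x)‖) ≤ A := by
    intro c
    calc _ ≤ ex (fun _ : Fin M → Bool => A) := by
          refine ex_mono fun x => (hA' x _).trans ?_
          have : (ed (List.ofFn x ++ Z) (List.ofFn (flp c x) ++ Z) : ℝ) ≤ 1 := by
            exact_mod_cast near_flip c x Z
          nlinarith
      _ = A := ex_const _
  have near2 : ∀ s l : ℕ, s + l ≤ M → ex (fun x => ‖ψ x - ψ (x ∘ rot M s l 1)‖) ≤ 2 * A := by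
    intro s l hsl
    calc _ ≤ ex (fun _ : Fin M → Bool => 2 * A) := by
          refine ex_mono fun x => (hA' x _).trans ?_
          have : (ed (List.ofFn x ++ Z) (List.ofFn (x ∘ rot M s l 1) ++ Z) : ℝ) ≤ 2 := by
            exact_mod_cast near_rot hsl x Z
          nlinarith
      _ = 2 * A := ex_const _
  have far : ∀ s L : ℕ, s + 2 * L ≤ M → 128 ≤ L →
      (L : ℝ) / 256 ≤ B * ex (fun x => ‖ψ x - ψ (x ∘ rot M s (2 * L) L)‖) := by
    intro s L hsL hL'
    refine (far_bound hsL hL' Z).trans ?_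
    rw [← ex_mul_left]
    exact ex_mono fun x => hB' x _
  have hdL' : 2 * d ^ 3 * 9 ^ d ≤ L₀ := by
    refine le_trans ?_ hdL
    have h1 : 9 ^ d ≤ 81 ^ d := Nat.pow_le_pow_left (by norm_num) d
    have h2 : d ^ 3 ≤ d ^ 6 := Nat.pow_le_pow_right hd (by norm_num)
    have h3 : 2 * d ^ 3 ≤ 8 * d ^ 6 := by omega
    exact Nat.mul_le_mul h3 h1
  have hmain := ell1_ineq (M := M) hL0 hR hM hd hdL' ψ
  -- useful scale identities
  have hlev128 : ∀ i, 128 ≤ lev L₀ R' i := by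
    intro i
    unfold lev
    have : 1 ≤ (2 * R') ^ i := Nat.one_le_pow _ _ (by omega)
    nlinarith
  -- lower bound
  have hlow : (t : ℝ) * (M / 512) ≤ B * ∑ i ∈ Finset.range t, ∑ p ∈ Finset.range ((2 * R') ^ (t - 1 - i)),
      ∑ v ∈ Finset.range R', ex (fun x => ‖ψ x - ψ (x ∘ nodeT M (lev L₀ R' i) (p * R' + v))‖) := by
    have h1 : ∀ i ∈ Finset.range t, (M : ℝ) / 512 ≤ B * ∑ p ∈ Finset.range ((2 * R') ^ (t - 1 - i)),
      ∑ v ∈ Finset.range R', ex (fun x => ‖ψ x - ψ (x ∘ nodeT M (lev L₀ R' i) (p * R' + v))‖) := by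
      intro i hi
      have hi' := Finset.mem_range.mp hi
      have hMi := M_eq hM hi'
      have h2 : ∀ p ∈ Finset.range ((2 * R') ^ (t - 1 - i)), ∀ v ∈ Finset.range R',
          (lev L₀ R' i : ℝ) / 256 ≤ B * ex (fun x => ‖ψ x - ψ (x ∘ nodeT M (lev L₀ R' i) (p * R' + v))‖) := by
        intro p hp v hv
        exact far _ _ (node_fit hMi (Finset.mem_range.mp hp) (Finset.mem_range.mp hv)) (hlev128 i)
      have h3 : ∑ p ∈ Finset.range ((2 * R') ^ (t - 1 - i)), ∑ v ∈ Finset.range R', ((lev L₀ R' i : ℝ) / 256)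
          ≤ ∑ p ∈ Finset.range ((2 * R') ^ (t - 1 - i)), ∑ v ∈ Finset.range R',
            (B * ex (fun x => ‖ψ x - ψ (x ∘ nodeT M (lev L₀ R' i) (p * R' + v))‖)) :=
        Finset.sum_le_sum fun p hp => Finset.sum_le_sum fun v hv => h2 p hp v hv
      simp only [Finset.sum_const, Finset.card_range, nsmul_eq_mul, ← Finset.mul_sum] at h3
      have hMi' : (M : ℝ) = (((2 * R') ^ (t - 1 - i) : ℕ) : ℝ) * (2 * (lev L₀ R' i : ℝ) * R') := by
        exact_mod_cast hMi
      rw [hMi']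
      have e : (((2 * R') ^ (t - 1 - i) : ℕ) : ℝ) * (2 * (lev L₀ R' i : ℝ) * R') / 512
          = (((2 * R') ^ (t - 1 - i) : ℕ) : ℝ) * ((R' : ℝ) * ((lev L₀ R' i : ℝ) / 256)) := by ring
      rw [e]
      exact h3
    have h4 := Finset.sum_le_sum h1
    simp only [Finset.sum_const, Finset.card_range, nsmul_eq_mul] at h4
    rw [Finset.mul_sum]
    exact h4
  -- upper bound
  have hdpos : (0 : ℝ) < d := by exact_mod_cast hd
  have hRpos : (0 : ℝ) < R' := by exact_mod_cast hR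
  have hLpos : (0 : ℝ) < L₀ := by exact_mod_cast hL0
  have hMr : (0 : ℝ) < M := by exact_mod_cast hMpos
  have hup1 : ∑ c : Fin M, ex (fun x => ‖ψ x - ψ (flp c x)‖) ≤ M * A := by
    calc _ ≤ ∑ c : Fin M, A := Finset.sum_le_sum fun c _ => near1 c
      _ = M * A := by simp
  have hup2 : ∑ u ∈ Finset.range ((2 * R') ^ t), ex (fun x => ‖ψ x - ψ (x ∘ rot M (u * L₀) L₀ 1)‖)
      ≤ ((2 * R') ^ t : ℕ) * (2 * A) := by
    calc _ ≤ ∑ u ∈ Finset.range ((2 * R') ^ t), (2 * A) := by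
          refine Finset.sum_le_sum fun u hu => near2 _ _ ?_
          have hu' := Finset.mem_range.mp hu
          rw [hM]
          nlinarith
      _ = _ := by simp
  have hup3 : ∑ i ∈ Finset.range t, ∑ p ∈ Finset.range ((2 * R') ^ (t - 1 - i)),
        2 * (lev L₀ R' i : ℝ) * ex (fun x => ‖ψ x - ψ (x ∘ parU M (lev L₀ R' i) R' p 1)‖)
      ≤ t * (4 * A * (M / (2 * R'))) := by
    have h1 : ∀ i ∈ Finset.range t, ∑ p ∈ Finset.range ((2 * R') ^ (t - 1 - i)),
        2 * (lev L₀ R' i : ℝ) * ex (fun x => ‖ψ x - ψ (x ∘ parU M (lev L₀ R' i) R' p 1)‖)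
        ≤ 4 * A * (M / (2 * R')) := by
      intro i hi
      have hi' := Finset.mem_range.mp hi
      have hMi := M_eq hM hi'
      have h2 : ∀ p ∈ Finset.range ((2 * R') ^ (t - 1 - i)),
          2 * (lev L₀ R' i : ℝ) * ex (fun x => ‖ψ x - ψ (x ∘ parU M (lev L₀ R' i) R' p 1)‖)
            ≤ 2 * (lev L₀ R' i : ℝ) * (2 * A) := by
        intro p hp
        exact mul_le_mul_of_nonneg_left (near2 _ _ (par_fit hMi (Finset.mem_range.mp hp)))
          (by positivity)
      refine (Finset.sum_le_sum h2).trans ?_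
      simp only [Finset.sum_const, Finset.card_range, nsmul_eq_mul]
      have hMi' : (M : ℝ) = (((2 * R') ^ (t - 1 - i) : ℕ) : ℝ) * (2 * (lev L₀ R' i : ℝ) * R') := by
        exact_mod_cast hMi
      rw [hMi']
      apply le_of_eq
      field_simp
      ring
    refine (Finset.sum_le_sum h1).trans ?_
    simp
  have hMcast : (M : ℝ) = L₀ * ((2 * R') ^ t : ℕ) := by
    rw [hM]
    push_cast
    ring
  -- combine the terms
  have hcoef1 : 16 * (d : ℝ) ^ 5 * 81 ^ d * (((2 * R') ^ t : ℕ) * (2 * A)) ≤ 4 * A * M / d := by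
    have h8 : 8 * (d : ℝ) ^ 6 * 81 ^ d ≤ L₀ := by exact_mod_cast hdL
    rw [le_div_iff₀ hdpos, hMcast]
    have hq : (0 : ℝ) ≤ ((2 * R') ^ t : ℕ) := by positivity
    have h9 : (8 * (d : ℝ) ^ 6 * 81 ^ d) * (4 * A * ((2 * R') ^ t : ℕ))
        ≤ L₀ * (4 * A * ((2 * R') ^ t : ℕ)) :=
      mul_le_mul_of_nonneg_right h8 (by positivity)
    calc _ = (8 * (d : ℝ) ^ 6 * 81 ^ d) * (4 * A * ((2 * R') ^ t : ℕ)) := by ring
      _ ≤ _ := h9
      _ = _ := by ring
  have hcoef2 : (t : ℝ) * (4 * A * (M / (2 * R'))) ≤ 4 * A * M / d := by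
    have h8 : (t : ℝ) * d ≤ 2 * R' := by exact_mod_cast htd
    rw [le_div_iff₀ hdpos]
    have h9 : 4 * A * (M / (2 * R')) * ((t : ℝ) * d) ≤ 4 * A * (M / (2 * R')) * (2 * R') :=
      mul_le_mul_of_nonneg_left h8 (by positivity)
    calc _ = 4 * A * (M / (2 * R')) * ((t : ℝ) * d) := by ring
      _ ≤ _ := h9
      _ = _ := by field_simp
  have hcoef0 : 4 / (d : ℝ) * (M * A) = 4 * A * M / d := by ring
  have hC : 0 ≤ 16 * (d : ℝ) ^ 5 * 81 ^ d := by positivity
  have hP : ∑ i ∈ Finset.range t, ∑ p ∈ Finset.range ((2 * R') ^ (t - 1 - i)), ∑ v ∈ Finset.range R',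
        ex (fun x => ‖ψ x - ψ (x ∘ nodeT M (lev L₀ R' i) (p * R' + v))‖)
      ≤ 12 * A * M / d := by
    refine hmain.trans ?_
    have h4d : 0 ≤ 4 / (d : ℝ) := by positivity
    have t1 := mul_le_mul_of_nonneg_left hup1 h4d
    have t2 := mul_le_mul_of_nonneg_left hup2 hC
    have e : 12 * A * M / d = 4 * A * M / d + 4 * A * M / d + 4 * A * M / d := by ring
    rw [e]
    linarith
  have hfin : (t : ℝ) * (M / 512) ≤ B * (12 * A * M / d) :=
    hlow.trans (mul_le_mul_of_nonneg_left hP hB0.le)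
  have h10 : (t : ℝ) * (M / 512) * (d / M * (1 / 12)) ≤ B * (12 * A * M / d) * (d / M * (1 / 12)) :=
    mul_le_mul_of_nonneg_right hfin (by positivity)
  have e1 : (t : ℝ) * (M / 512) * (d / M * (1 / 12)) = (t : ℝ) * d / 6144 := by
    field_simp
    ring
  have e2 : B * (12 * A * M / d) * (d / M * (1 / 12)) = A * B := by
    field_simp
  rw [e1, e2] at h10
  exact h10

end Vale.Agent.Lib.P238
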