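import Vale.Agent.Lib.P238.Far
import Vale.Agent.Lib.P238.Cone

/-!
Short moves in edit distance, padding, and the final inequality.
-/

set_option linter.unusedSectionVars false
set_option linter.unusedSimpArgs false
set_option linter.unusedVariables false

namespace Vale.Agent.Lib.P238

open Finset

variable {M : ℕ}

lemma ed_pad_le (u v Z : List Bool) : ed (u ++ Z) (v ++ Z) ≤ ed u v := by
  have := ed_append_le u Z v Z
  rw [ed_self] at this
  simpa using this

lemma ofFn_flp (c : Fin M) (x : Fin M → Bool) :
    List.ofFn (flp c x) = (List.ofFn x).set c.val (!x c) := by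
  apply List.ext_getElem
  · simp
  · intro i h1 h2
    have hi : i < M := by simpa using h1
    simp only [List.getElem_ofFn, List.getElem_set]
    unfold flp
    by_cases h : c.val = i
    · have : (⟨i, by simpa using h1⟩ : Fin M) = c := Fin.ext h.symm
      simp [h, this]
    · have : (⟨i, by simpa using h1⟩ : Fin M) ≠ c := fun e => h (by rw [← e])
      simp [h, Function.update_of_ne this]

lemma near_flip (c : Fin M) (x : Fin M → Bool) (Z : List Bool) :
    ed (List.ofFn x ++ Z) (List.ofFn (flp c x) ++ Z) ≤ 1 := by
  refine (ed_pad_le _ _ _).trans ?_
  rw [ofFn_flp]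
  exact ed_set_le _ _ _

lemma ofFn_rot {s l : ℕ} (h : s + l ≤ M) (k : ℕ) (x : Fin M → Bool) :
    List.ofFn (x ∘ rot M s l k) = (List.ofFn x).take s
      ++ (((List.ofFn x).drop s).take l).rotate k ++ (List.ofFn x).drop (s + l) := by
  have hlen1 : ((List.ofFn x).take s).length = s := by
    simp
    omega
  have hlen2 : ((((List.ofFn x).drop s).take l).rotate k).length = l := by
    simp
    omega
  apply List.ext_getElem
  · simp
    omega
  · intro i h1 h2
    have hi : i < M := by simpa using h1
    rw [List.getElem_ofFn]
    simp only [Function.comp]
    by_cases c1 : i < s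
    · rw [List.getElem_append_left (by simp; omega), List.getElem_append_left (by omega),
        List.getElem_take, List.getElem_ofFn]
      congr 1
      apply Fin.ext
      rw [rot_apply_val h]
      have : ¬ (s ≤ i ∧ i < s + l) := by omega
      exact rn_of_not_mem this
    · by_cases c2 : i < s + l
      · rw [List.getElem_append_left (by simp; omega), List.getElem_append_right (by omega)]
        have hl : 0 < l := by omega
        have hm : (i - s + k) % l < l := Nat.mod_lt _ hl
        simp only [hlen1]
        rw [List.getElem_rotate]
        rw [List.getElem_take, List.getElem_drop, List.getElem_ofFn]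
        congr 1
        apply Fin.ext
        rw [rot_apply_val h, rn_of_mem (by omega) c2]
        simp only [List.length_take, List.length_drop, List.length_ofFn]
        have e : min l (M - s) = l := by omega
        rw [e]
      · rw [List.getElem_append_right (by simp; omega), List.getElem_drop, List.getElem_ofFn]
        congr 1
        apply Fin.ext
        have : ¬ (s ≤ i ∧ i < s + l) := by omega
        rw [rot_apply_val h, rn_of_not_mem this]
        simp only [List.length_append, hlen1, hlen2]
        omega

lemma near_rot {s l : ℕ} (h : s + l ≤ M) (x : Fin M → Bool) (Z : List Bool) :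
    ed (List.ofFn x ++ Z) (List.ofFn (x ∘ rot M s l 1) ++ Z) ≤ 2 := by
  refine (ed_pad_le _ _ _).trans ?_
  rw [ofFn_rot h]
  set P := (List.ofFn x).take s
  set b := ((List.ofFn x).drop s).take l
  set Q := (List.ofFn x).drop (s + l)
  have e : List.ofFn x = P ++ b ++ Q := by
    have h1 : (List.ofFn x).drop s = b ++ ((List.ofFn x).drop s).drop l := by
      rw [List.take_append_drop]
    rw [List.drop_drop] at h1
    rw [List.append_assoc, ← h1, List.take_append_drop]
  have h1 := ed_append_le (P ++ b) Q (P ++ b.rotate 1) Q
  have h2 := ed_append_le P b P (b.rotate 1)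
  have h3 := ed_rotate_one_le b
  rw [ed_self] at h1 h2
  rw [← e] at h1
  omega

/-- Padding a word with zeros. -/
def pad {n : ℕ} (h : M ≤ n) (y : Fin M → Bool) : Fin n → Bool :=
  fun i => if hi : i.val < M then y ⟨i.val, hi⟩ else false

lemma ofFn_pad {n : ℕ} (h : M ≤ n) (y : Fin M → Bool) :
    List.ofFn (pad h y) = List.ofFn y ++ List.replicate (n - M) false := by
  apply List.ext_getElem
  · simp
    omega
  · intro i h1 h2
    have hi : i < n := by simpa using h1
    simp only [List.getElem_ofFn]
    by_cases c : i < M
    · rw [List.getElem_append_left (by simpa using c), List.getElem_ofFn]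
      simp [pad, c]
    · rw [List.getElem_append_right (by simpa using c)]
      simp [pad, c]

end Vale.Agent.Lib.P238
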