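import Vale.Agent.Lib.P238.Main

/-!
The choice of parameters and the asymptotic form.
-/

set_option linter.unusedSectionVars false
set_option linter.unusedSimpArgs false
set_option linter.unusedVariables false

namespace Vale.Agent.Lib.P238

lemma sq_le_two_pow_half {J : ℕ} (hJ : 32 ≤ J) : J ^ 2 ≤ 2 ^ (J / 2) := by
  have key : ∀ k : ℕ, 16 ≤ k → (2 * k + 1) ^ 2 ≤ 2 ^ k := by
    intro k hk
    induction k, hk using Nat.le_induction with
    | base => norm_num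
    | succ k hk ih =>
      rw [pow_succ 2 k]
      nlinarith
  have h1 : J ≤ 2 * (J / 2) + 1 := by omega
  have h2 := key (J / 2) (by omega)
  exact (Nat.pow_le_pow_left h1 2).trans h2

lemma coef_bound {d : ℕ} (hd : 1 ≤ d) : 8 * d ^ 6 * 81 ^ d ≤ 2 ^ (16 * d) := by
  have h1 : d ^ 6 ≤ 2 ^ (6 * d) := by
    rw [mul_comm, pow_mul]
    exact Nat.pow_le_pow_left (Nat.lt_two_pow_self).le 6
  have h2 : 8 ≤ 2 ^ (3 * d) := by
    calc 8 = 2 ^ 3 := by norm_num
      _ ≤ 2 ^ (3 * d) := Nat.pow_le_pow_right (by norm_num) (by omega)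
  have h3 : 81 ^ d ≤ 2 ^ (7 * d) := by
    rw [pow_mul]
    exact Nat.pow_le_pow_left (by norm_num) d
  calc 8 * d ^ 6 * 81 ^ d ≤ 2 ^ (3 * d) * 2 ^ (6 * d) * 2 ^ (7 * d) :=
        Nat.mul_le_mul (Nat.mul_le_mul h2 h1) h3
    _ = 2 ^ (16 * d) := by
      rw [← pow_add, ← pow_add]
      congr 1
      ring

/-- The parameters at dyadic scale `J`. -/
lemma params {J : ℕ} (hJ : 32 ≤ J) :
    ∃ L₀ R' t d r : ℕ, 128 ≤ L₀ ∧ 0 < R' ∧ 2 ^ J = L₀ * (2 * R') ^ t ∧ 1 ≤ d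
      ∧ 8 * d ^ 6 * 81 ^ d ≤ L₀ ∧ t * d ≤ 2 * R' ∧ r = Nat.clog 2 (J ^ 2)
      ∧ J ^ 2 ≤ 256 * r * (t * d) := by
  set r := Nat.clog 2 (J ^ 2) with hr
  have hr1 : 1 ≤ r := by
    apply Nat.clog_pos (by norm_num)
    nlinarith
  have hr2 : J ^ 2 ≤ 2 ^ r := Nat.le_pow_clog (by norm_num) _
  have hr3 : r ≤ J / 2 := Nat.clog_le_of_le_pow (sq_le_two_pow_half hJ)
  set t := J / (2 * r) with ht
  set d := J / 32 with hd
  have hd1 : 1 ≤ d := by
    rw [hd]
    exact (Nat.one_le_div_iff (by norm_num)).mpr hJ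
  have ht1 : 1 ≤ t := by
    rw [ht]
    exact (Nat.one_le_div_iff (by omega)).mpr (by omega)
  have htr : t * (2 * r) ≤ J := Nat.div_mul_le_self J (2 * r)
  have htr2 : t * r ≤ J / 2 := by
    have : t * (2 * r) = 2 * (t * r) := by ring
    omega
  have hd32 : 32 * d ≤ J := Nat.mul_div_le J 32
  refine ⟨2 ^ (J - t * r), 2 ^ (r - 1), t, d, r, ?_, by positivity, ?_, hd1, ?_, ?_, rfl, ?_⟩
  · calc 128 = 2 ^ 7 := by norm_num
      _ ≤ 2 ^ (J - t * r) := Nat.pow_le_pow_right (by norm_num) (by omega)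
  · have e : 2 * 2 ^ (r - 1) = 2 ^ r := by
      rw [← pow_succ']
      congr 1
      omega
    rw [e, ← pow_mul, ← pow_add]
    congr 1
    have : r * t = t * r := by ring
    omega
  · refine (coef_bound hd1).trans (Nat.pow_le_pow_right (by norm_num) ?_)
    omega
  · have e : 2 * 2 ^ (r - 1) = 2 ^ r := by
      rw [← pow_succ']
      congr 1
      omega
    rw [e]
    refine le_trans ?_ hr2
    have h1 : t ≤ J := Nat.div_le_self _ _
    have h2 : d ≤ J := Nat.div_le_self _ _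
    rw [pow_two]
    exact Nat.mul_le_mul h1 h2
  · have h1 : J < (t + 1) * (2 * r) := by
      have := Nat.lt_mul_div_succ J (by omega : 0 < 2 * r)
      rw [← ht] at this
      nlinarith
    have h2 : J < 32 * (d + 1) := by
      have := Nat.lt_mul_div_succ J (by omega : 0 < 32)
      rw [← hd] at this
      omega
    have h3 : J ≤ 4 * r * t := by nlinarith
    have h4 : J ≤ 64 * d := by omega
    calc J ^ 2 = J * J := by ring
      _ ≤ (4 * r * t) * (64 * d) := Nat.mul_le_mul h3 h4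
      _ = 256 * r * (t * d) := by ring

/-- The bound for the dyadic scale of `n`. -/
lemma dyadic_bound {n J : ℕ} (hJ : 32 ≤ J) (hn : 2 ^ J ≤ n)
    (φ : (Fin n → Bool) → lp (fun _ : ℕ => ℝ) 1) (A B : ℝ)
    (hA : ∀ x y, ‖φ x - φ y‖ ≤ A * (edCube x y : ℝ))
    (hB : ∀ x y, (edCube x y : ℝ) ≤ B * ‖φ x - φ y‖) :
    (J : ℝ) ^ 2 / (1572864 * (Nat.clog 2 (J ^ 2) : ℝ)) ≤ A * B := by
  obtain ⟨L₀, R', t, d, r, h1, h2, h3, h4, h5, h6, h7, h8⟩ := params hJ
  have hmain := main_ineq hn h1 h2 h3 h4 h5 h6 φ A B hA hB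
  have hr : 0 < r := by
    rw [h7]
    apply Nat.clog_pos (by norm_num)
    nlinarith
  rw [← h7]
  refine le_trans ?_ hmain
  have h9 : (J : ℝ) ^ 2 ≤ 256 * r * ((t : ℝ) * d) := by exact_mod_cast h8
  have hrpos : (0 : ℝ) < r := by exact_mod_cast hr
  rw [div_le_div_iff₀ (by positivity) (by norm_num)]
  nlinarith

/-- The asymptotic form. -/
theorem asymptotic {n : ℕ} (hn : 2 ^ 32 ≤ n)
    (φ : (Fin n → Bool) → lp (fun _ : ℕ => ℝ) 1) (A B : ℝ)
    (hA : ∀ x y, ‖φ x - φ y‖ ≤ A * (edCube x y : ℝ))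
    (hB : ∀ x y, (edCube x y : ℝ) ≤ B * ‖φ x - φ y‖) :
    1 / 50331648 * Real.log n ^ 2 / Real.log (Real.log n) ≤ A * B := by
  set J := Nat.log 2 n with hJdef
  have hn0 : n ≠ 0 := by
    have : 0 < 2 ^ 32 := by norm_num
    omega
  have hJ : 32 ≤ J := by
    rw [hJdef]
    exact Nat.le_log_of_pow_le (by norm_num) hn
  have h2J : 2 ^ J ≤ n := Nat.pow_log_le_self 2 hn0
  have hlt : n < 2 ^ (J + 1) := Nat.lt_pow_succ_log_self (by norm_num) n
  have hbound := dyadic_bound hJ h2J φ A B hA hB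
  refine le_trans ?_ hbound
  -- logarithm facts
  set ℓ := Real.log n with hℓ
  have hl2a : (0.69 : ℝ) < Real.log 2 := by
    have := Real.log_two_gt_d9
    linarith
  have hl2b : Real.log 2 < 0.7 := by
    have := Real.log_two_lt_d9
    linarith
  have hnr : (0 : ℝ) < n := by
    have : 0 < n := Nat.pos_of_ne_zero hn0
    exact_mod_cast this
  have hJr : (32 : ℝ) ≤ J := by exact_mod_cast hJ
  have hlow : (J : ℝ) * Real.log 2 ≤ ℓ := by
    have h1 : ((2 : ℝ) ^ J) ≤ n := by exact_mod_cast h2J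
    have h2 := Real.log_le_log (by positivity) h1
    rwa [Real.log_pow] at h2
  have hupp : ℓ ≤ ((J : ℝ) + 1) * Real.log 2 := by
    have h1 : (n : ℝ) ≤ (2 : ℝ) ^ (J + 1) := by exact_mod_cast hlt.le
    have h2 := Real.log_le_log hnr h1
    rw [Real.log_pow] at h2
    push_cast at h2
    exact h2
  have hℓ20 : 22 ≤ ℓ := by nlinarith
  have hJl : ℓ ≤ 2 * J := by nlinarith
  have hJu : (J : ℝ) ≤ 2 * ℓ := by nlinarith
  have hloglog : 1 ≤ Real.log ℓ := by
    rw [Real.le_log_iff_exp_le (by linarith)]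
    have := Real.exp_one_lt_d9
    linarith
  -- bound the clog
  set r := Nat.clog 2 (J ^ 2) with hr
  have hr0 : 0 < r := by
    apply Nat.clog_pos (by norm_num)
    nlinarith
  have hrr : (0 : ℝ) < r := by exact_mod_cast hr0
  have hrup : (r : ℝ) ≤ 8 * Real.log ℓ := by
    set q := Nat.log 2 J with hq
    have hJ0 : J ≠ 0 := by omega
    have h1 : J < 2 ^ (q + 1) := Nat.lt_pow_succ_log_self (by norm_num) J
    have h2 : J ^ 2 ≤ 2 ^ (2 * (q + 1)) := by
      rw [mul_comm, pow_mul]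
      exact Nat.pow_le_pow_left h1.le 2
    have h3 : r ≤ 2 * (q + 1) := Nat.clog_le_of_le_pow h2
    have h4 : 2 ^ q ≤ J := Nat.pow_log_le_self 2 hJ0
    have h5 : ((2 : ℝ) ^ q) ≤ J := by exact_mod_cast h4
    have h6 : (q : ℝ) * Real.log 2 ≤ Real.log ℓ + Real.log 2 := by
      have h7 : ((2 : ℝ) ^ q) ≤ 2 * ℓ := h5.trans hJu
      have h8 := Real.log_le_log (by positivity) h7
      rw [Real.log_pow, Real.log_mul (by norm_num) (by linarith)] at h8
      linarith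
    have h7 : (q : ℝ) ≤ 2 * Real.log ℓ + 1 := by nlinarith
    have h8 : (r : ℝ) ≤ 2 * ((q : ℝ) + 1) := by exact_mod_cast h3
    linarith
  have hlogpos : 0 < Real.log ℓ := by linarith
  rw [div_le_div_iff₀ hlogpos (by positivity)]
  have hJsq : ℓ ^ 2 ≤ 4 * (J : ℝ) ^ 2 := by
    have hℓ0 : 0 ≤ ℓ := by linarith
    nlinarith
  have hfinal : 1 / 50331648 * ℓ ^ 2 * (1572864 * (r : ℝ)) ≤ (J : ℝ) ^ 2 * Real.log ℓ := by
    have hJ2 : (0 : ℝ) ≤ (J : ℝ) ^ 2 := by positivity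
    have s1 : (r : ℝ) * ℓ ^ 2 ≤ (8 * Real.log ℓ) * (4 * (J : ℝ) ^ 2) :=
      mul_le_mul hrup hJsq (by positivity) (by positivity)
    nlinarith
  exact hfinal

end Vale.Agent.Lib.P238
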